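import Vale.Agent.P174.Defs

/-!
# Compactness: from finite systems to infinite families of independent relators.
-/

universe u v w

namespace Vale.Agent.P174

open Monoid

section compact

variable {B : Type u} [Group B] {Y : Type v}

/-- Exponent vector of an element of `B * F(Y)`, as a homomorphism. -/
noncomputable def expY : Monoid.Coprod B (FreeGroup Y) →* Multiplicative (Y →₀ ℚ) :=
  Monoid.Coprod.lift 1 (FreeGroup.lift fun y => Multiplicative.ofAdd (Finsupp.single y 1))

/-- Exponent vector of an element of `B * F(Y)`. -/
noncomputable def expYVec (z : Monoid.Coprod B (FreeGroup Y)) : Y →₀ ℚ :=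
  Multiplicative.toAdd (expY z)

@[simp] theorem expYVec_one : expYVec (1 : Monoid.Coprod B (FreeGroup Y)) = 0 := by
  simp [expYVec]

@[simp] theorem expYVec_mul (a b : Monoid.Coprod B (FreeGroup Y)) :
    expYVec (a * b) = expYVec a + expYVec b := by
  simp [expYVec]

@[simp] theorem expYVec_inv (a : Monoid.Coprod B (FreeGroup Y)) :
    expYVec (a⁻¹) = - expYVec a := by
  simp [expYVec]

@[simp] theorem expYVec_inl (b : B) :
    expYVec (Monoid.Coprod.inl b : Monoid.Coprod B (FreeGroup Y)) = 0 := by
  simp [expYVec, expY]

@[simp] theorem expYVec_inr_of (y : Y) :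
    expYVec (Monoid.Coprod.inr (FreeGroup.of y) : Monoid.Coprod B (FreeGroup Y))
      = Finsupp.single y 1 := by
  simp [expYVec, expY]

end compact

theorem mem_normalClosure_finset {H : Type u} [Group H] {I : Type v} (τ : I → H) {z : H}
    (hz : z ∈ Subgroup.normalClosure (Set.range τ)) :
    ∃ I₀ : Finset I, z ∈ Subgroup.normalClosure (τ '' (I₀ : Set I)) := by
  classical
  let K : Subgroup H :=
    { carrier := {z | ∃ I₀ : Finset I, z ∈ Subgroup.normalClosure (τ '' (I₀ : Set I))}
      one_mem' := ⟨∅, Subgroup.one_mem _⟩
      mul_mem' := by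
        rintro a b ⟨I₁, h₁⟩ ⟨I₂, h₂⟩
        refine ⟨I₁ ∪ I₂, Subgroup.mul_mem _ ?_ ?_⟩
        · refine Subgroup.normalClosure_mono ?_ h₁
          exact Set.image_mono (by simp)
        · refine Subgroup.normalClosure_mono ?_ h₂
          exact Set.image_mono (by simp)
      inv_mem' := by
        rintro a ⟨I₁, h₁⟩
        exact ⟨I₁, Subgroup.inv_mem _ h₁⟩ }
  have : K.Normal := ⟨by
    rintro a ⟨I₁, h₁⟩ g
    exact ⟨I₁, Subgroup.Normal.conj_mem inferInstance a h₁ g⟩⟩
  have hle : Subgroup.normalClosure (Set.range τ) ≤ K := by
    refine Subgroup.normalClosure_le_normal ?_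
    rintro _ ⟨i, rfl⟩
    refine ⟨{i}, Subgroup.subset_normalClosure ?_⟩
    simp
  exact hle hz

section compact2

variable {B : Type u} [Group B] {Y : Type v} {I : Type w}

/-- If `B` satisfies Howie's conjecture, then every family of elements of `B * F(Y)` whose exponent
vectors are linearly independent over `ℚ` has `B` embedded in the quotient. -/
theorem compact (hB : AllSolv B) (τ : I → Monoid.Coprod B (FreeGroup Y))
    (hτ : LinearIndependent ℚ (fun i => expYVec (τ i))) :
    Function.Injective
      ((QuotientGroup.mk' (Subgroup.normalClosure (Set.range τ))).comp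
        (Monoid.Coprod.inl : B →* Monoid.Coprod B (FreeGroup Y))) := by
  classical
  rw [injective_iff_map_eq_one]
  intro b hb
  have hb' : (Monoid.Coprod.inl b : Monoid.Coprod B (FreeGroup Y))
      ∈ Subgroup.normalClosure (Set.range τ) := by
    simpa [QuotientGroup.eq_one_iff] using hb
  obtain ⟨I₀, hI₀⟩ := mem_normalClosure_finset τ hb'
  -- finitely many variables
  let Y₀ : Finset Y := I₀.biUnion fun i => (expYVec (τ i)).support
  let e : Y₀ ≃ Fin Y₀.card := Y₀.equivFin
  let f : I₀ ≃ Fin I₀.card := I₀.equivFin
  let lam : Monoid.Coprod B (FreeGroup Y) →* Star B Y₀.card :=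
    Monoid.Coprod.lift Monoid.Coprod.inl
      (FreeGroup.lift fun y =>
        if h : y ∈ Y₀ then Monoid.Coprod.inr (FreeGroup.of (e ⟨y, h⟩)) else 1)
  let w' : Fin I₀.card → Star B Y₀.card := fun k => lam (τ (f.symm k))
  -- exponents of the image
  have hexp : ∀ (z : Monoid.Coprod B (FreeGroup Y)) (j : Fin Y₀.card),
      ((expoVec (lam z) j : ℤ) : ℚ) = expYVec z (e.symm j : Y) := by
    intro z j
    induction z using Monoid.Coprod.induction_on with
    | inl b => simp [lam]
    | inr y =>
      induction y using FreeGroup.induction_on with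
      | C1 => simp
      | of y =>
        by_cases h : y ∈ Y₀
        · have : lam (Monoid.Coprod.inr (FreeGroup.of y))
              = Monoid.Coprod.inr (FreeGroup.of (e ⟨y, h⟩)) := by
            simp [lam, h]
          rw [this, expoVec_inr_of, expYVec_inr_of, Finsupp.single_apply]
          by_cases hj : j = e ⟨y, h⟩
          · subst hj; simp
          · have : y ≠ (e.symm j : Y) := by
              intro hy
              apply hj
              have : e.symm j = ⟨y, h⟩ := Subtype.ext hy.symm
              rw [← this]; simp
            simp [hj, this]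
        · have : lam (Monoid.Coprod.inr (FreeGroup.of y)) = 1 := by
            simp [lam, h]
          rw [this, expoVec_one, expYVec_inr_of, Finsupp.single_apply]
          have : y ≠ (e.symm j : Y) := by
            intro hy
            exact h (hy ▸ (e.symm j).2)
          simp [this]
      | inv_of y ih =>
        have h1 : (Monoid.Coprod.inr ((FreeGroup.of y)⁻¹) : Monoid.Coprod B (FreeGroup Y))
            = (Monoid.Coprod.inr (FreeGroup.of y))⁻¹ := by simp
        rw [h1, map_inv, expoVec_inv, expYVec_inv]
        simp only [Int.cast_neg, Finsupp.coe_neg, Pi.neg_apply, ih]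
      | mul a b ha hb =>
        have h1 : (Monoid.Coprod.inr (a * b) : Monoid.Coprod B (FreeGroup Y))
            = Monoid.Coprod.inr a * Monoid.Coprod.inr b := by simp
        rw [h1, map_mul, expoVec_mul, expYVec_mul]
        simp only [Int.cast_add, Finsupp.coe_add, Pi.add_apply, ha, hb]
    | mul a b ha hb =>
      rw [map_mul, expoVec_mul, expYVec_mul]
      simp only [Int.cast_add, Finsupp.coe_add, Pi.add_apply, ha, hb]
  -- nonsingularity
  have hns : Nonsingular w' := by
    unfold Nonsingular
    rw [Fintype.linearIndependent_iff]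
    intro c hc k
    -- pull back to the family `τ`
    have hτ' : LinearIndependent ℚ (fun k : Fin I₀.card => expYVec (τ (f.symm k))) := by
      refine hτ.comp (fun k => ((f.symm k : I₀) : I)) ?_
      intro a b hab
      exact f.symm.injective (Subtype.ext hab)
    rw [Fintype.linearIndependent_iff] at hτ'
    refine hτ' c ?_ k
    ext y
    by_cases hy : y ∈ Y₀
    · have := congrFun hc (e ⟨y, hy⟩)
      simp only [Finset.sum_apply, Pi.smul_apply, Pi.zero_apply, smul_eq_mul] at this
      simp only [Finsupp.coe_finsetSum, Finset.sum_apply, Finsupp.coe_smul, Pi.smul_apply,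
        smul_eq_mul, Finsupp.coe_zero, Pi.zero_apply]
      rw [← this]
      refine Finset.sum_congr rfl fun i _ => ?_
      simp only [w']
      rw [hexp]
      simp
    · simp only [Finsupp.coe_finsetSum, Finset.sum_apply, Finsupp.coe_smul, Pi.smul_apply,
        smul_eq_mul, Finsupp.coe_zero, Pi.zero_apply]
      refine Finset.sum_eq_zero fun i _ => ?_
      have : expYVec (τ (f.symm i)) y = 0 := by
        by_contra hne
        apply hy
        simp only [Y₀, Finset.mem_biUnion]
        exact ⟨(f.symm i : I), (f.symm i).2, by simpa using hne⟩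
      simp [this]
  have hsol := hB _ _ w' hns
  -- transport membership
  have hmem : (Monoid.Coprod.inl b : Star B Y₀.card)
      ∈ Subgroup.normalClosure (Set.range w') := by
    have hle : Subgroup.normalClosure (τ '' (I₀ : Set I))
        ≤ (Subgroup.normalClosure (Set.range w')).comap lam := by
      refine Subgroup.normalClosure_le_normal ?_
      rintro _ ⟨i, hi, rfl⟩
      refine Subgroup.subset_normalClosure ?_
      refine ⟨f ⟨i, hi⟩, ?_⟩
      simp [w']
    have := hle hI₀
    simpa [lam] using this
  have h1 : ((QuotientGroup.mk' (Subgroup.normalClosure (Set.range w'))).comp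
      (Monoid.Coprod.inl : B →* Star B Y₀.card)) b = 1 := by
    simpa [QuotientGroup.eq_one_iff] using hmem
  exact (injective_iff_map_eq_one _).1 hsol b h1

end compact2

end Vale.Agent.P174
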