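import Mathlib

/-!
# Nonsingular systems of equations over a group: basic definitions.
-/

universe u

namespace Vale.Agent.P174

open Monoid

/-- The free product `G * F_n` of the coefficient group `G` with the free group on `n` unknowns. -/
abbrev Star (G : Type u) [Group G] (n : ℕ) : Type u := Monoid.Coprod G (FreeGroup (Fin n))

/-- The exponent-sum homomorphism `G * F_n → ℤ^n`, killing `G` and sending `x_j` to `e_j`. -/
def expo {G : Type u} [Group G] (n : ℕ) : Star G n →* Multiplicative (Fin n → ℤ) :=
  Monoid.Coprod.lift 1 (FreeGroup.lift fun j => Multiplicative.ofAdd (Pi.single j 1))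

/-- The exponent-sum vector of a word, as a vector of integers. -/
def expoVec {G : Type u} [Group G] {n : ℕ} (w : Star G n) (j : Fin n) : ℤ :=
  (Multiplicative.toAdd (expo n w)) j

/-- A system `w_1, ..., w_m` over `G` is nonsingular when the rows of its exponent-sum matrix
are linearly independent over `ℚ`. -/
def Nonsingular {G : Type u} [Group G] {n m : ℕ} (w : Fin m → Star G n) : Prop :=
  LinearIndependent ℚ (fun (r : Fin m) (j : Fin n) => (expoVec (w r) j : ℚ))

/-- A system over `G` is solvable when `G` maps injectively into the quotient of `G * F_n`
by the normal closure of the system. -/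
def Solvable {G : Type u} [Group G] {n m : ℕ} (w : Fin m → Star G n) : Prop :=
  Function.Injective
    ((QuotientGroup.mk' (Subgroup.normalClosure (Set.range w))).comp
      (Monoid.Coprod.inl : G →* Star G n))

/-- Howie's conjecture for the group `G`: every nonsingular finite system over `G` is solvable. -/
def AllSolv (G : Type u) [Group G] : Prop :=
  ∀ (n m : ℕ) (w : Fin m → Star G n), Nonsingular w → Solvable w

section basics

variable {G : Type u} [Group G] {n : ℕ}

@[simp] theorem expoVec_one (j : Fin n) : expoVec (1 : Star G n) j = 0 := by
  simp [expoVec]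

@[simp] theorem expoVec_mul (u v : Star G n) (j : Fin n) :
    expoVec (u * v) j = expoVec u j + expoVec v j := by
  simp [expoVec]

@[simp] theorem expoVec_inv (u : Star G n) (j : Fin n) :
    expoVec (u⁻¹) j = - expoVec u j := by
  simp [expoVec]

@[simp] theorem expoVec_inl (g : G) (j : Fin n) :
    expoVec (Monoid.Coprod.inl g : Star G n) j = 0 := by
  simp [expoVec, expo]

@[simp] theorem expoVec_inr_of (i j : Fin n) :
    expoVec (Monoid.Coprod.inr (FreeGroup.of i) : Star G n) j = if j = i then 1 else 0 := by
  simp [expoVec, expo, Pi.single_apply]

/-- Induction principle for `G * F_n`: generators, products and inverses. -/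
theorem star_induction {P : Star G n → Prop}
    (hinl : ∀ g, P (Monoid.Coprod.inl g))
    (hx : ∀ j, P (Monoid.Coprod.inr (FreeGroup.of j)))
    (hmul : ∀ u v, P u → P v → P (u * v))
    (hinv : ∀ u, P u → P u⁻¹) (w : Star G n) : P w := by
  induction w using Monoid.Coprod.induction_on with
  | inl g => exact hinl g
  | inr y =>
    induction y using FreeGroup.induction_on with
    | C1 => simpa using hinl 1
    | of j => exact hx j
    | inv_of j ih => simpa using hinv _ ih
    | mul a b ha hb => simpa using hmul _ _ ha hb
  | mul a b ha hb => exact hmul _ _ ha hb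

end basics

end Vale.Agent.P174
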