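import Vale.Agent.P174.Poly

/-!
# Complete filtered rational algebras and their unipotent groups.
-/

universe u

namespace Vale.Agent.P174

/-- A complete separated filtration on a rational algebra `R`: a descending chain of subspaces
`J k` with `1 ∈ J 0`, `J i * J j ⊆ J (i + j)`, zero intersection, and such that every Cauchy
sequence has a limit. -/
structure CFil (R : Type u) [Ring R] [Algebra ℚ R] where
  /-- the filtration -/
  J : ℕ → Submodule ℚ R
  one_mem : (1 : R) ∈ J 0
  anti : ∀ k, J (k + 1) ≤ J k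
  mul_mem : ∀ {i j : ℕ} {a b : R}, a ∈ J i → b ∈ J j → a * b ∈ J (i + j)
  sep : ∀ a, (∀ k, a ∈ J k) → a = 0
  complete : ∀ T : ℕ → R, (∀ k, T (k + 1) - T k ∈ J k) → ∃ S, ∀ k, S - T k ∈ J k

namespace CFil

variable {R : Type u} [Ring R] [Algebra ℚ R] (C : CFil R)

theorem anti_le {a b : ℕ} (h : a ≤ b) : C.J b ≤ C.J a :=
  (antitone_nat_of_succ_le C.anti) h

/-- The unipotent group of a complete filtered algebra: the units `u` with `u - 1` and
`u⁻¹ - 1` in `J 1`. -/
def U : Subgroup Rˣ where
  carrier := {u | (u : R) - 1 ∈ C.J 1 ∧ ((u⁻¹ : Rˣ) : R) - 1 ∈ C.J 1}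
  one_mem' := by simp
  mul_mem' := by
    rintro a b ⟨ha, ha'⟩ ⟨hb, hb'⟩
    have key : ∀ x y : R, x - 1 ∈ C.J 1 → y - 1 ∈ C.J 1 → x * y - 1 ∈ C.J 1 := by
      intro x y hx hy
      have h1 : (x - 1) * (y - 1) ∈ C.J 1 := C.anti_le (by norm_num) (C.mul_mem hx hy)
      have := (C.J 1).add_mem ((C.J 1).add_mem h1 hx) hy
      convert this using 1
      noncomm_ring
    refine ⟨?_, ?_⟩
    · simpa using key _ _ ha hb
    · rw [mul_inv_rev]
      simpa using key _ _ hb' ha'
  inv_mem' := by
    rintro a ⟨ha, ha'⟩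
    exact ⟨ha', by simpa using ha⟩

variable {C}

/-- The underlying element of the algebra. -/
abbrev val (x : C.U) : R := ((x : Rˣ) : R)

theorem val_sub_one_mem (x : C.U) : val x - 1 ∈ C.J 1 := x.2.1

theorem val_inv_sub_one_mem (x : C.U) : val x⁻¹ - 1 ∈ C.J 1 := x.2.2

theorem val_mem_zero (x : C.U) : val x ∈ C.J 0 := by
  have := (C.J 0).add_mem (C.anti_le (by norm_num) (val_sub_one_mem x)) C.one_mem
  simpa using this

@[simp] theorem val_mul (x y : C.U) : val (x * y) = val x * val y := rfl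

@[simp] theorem val_one : val (1 : C.U) = 1 := rfl

@[simp] theorem val_inv_mul (x : C.U) : val x⁻¹ * val x = 1 := by
  exact Units.inv_mul (x : Rˣ)

@[simp] theorem val_mul_inv (x : C.U) : val x * val x⁻¹ = 1 := by
  exact Units.mul_inv (x : Rˣ)

theorem val_injective : Function.Injective (val : C.U → R) := by
  intro a b h
  exact Subtype.ext (Units.ext h)

variable (C)

theorem mul_mem_zero_left {k : ℕ} {a b : R} (ha : a ∈ C.J 0) (hb : b ∈ C.J k) : a * b ∈ C.J k := by
  simpa using C.mul_mem ha hb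

theorem mul_mem_zero_right {k : ℕ} {a b : R} (ha : a ∈ C.J k) (hb : b ∈ C.J 0) : a * b ∈ C.J k := by
  simpa using C.mul_mem ha hb

theorem mul_mem_one_left {k : ℕ} {a b : R} (ha : a ∈ C.J 1) (hb : b ∈ C.J k) :
    a * b ∈ C.J (k + 1) := by
  simpa [add_comm] using C.mul_mem ha hb

theorem mul_mem_one_right {k : ℕ} {a b : R} (ha : a ∈ C.J k) (hb : b ∈ C.J 1) :
    a * b ∈ C.J (k + 1) := C.mul_mem ha hb

theorem pow_mem {a : R} (ha : a ∈ C.J 1) (k : ℕ) : a ^ k ∈ C.J k := by
  induction k with
  | zero => simpa using C.one_mem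
  | succ k ih =>
    rw [pow_succ]
    exact C.mul_mem_one_right ih ha

/-- Elements of `1 + J 1` are units in the unipotent group. -/
theorem exists_unit {a : R} (ha : a ∈ C.J 1) : ∃ v : C.U, val v = 1 + a := by
  -- the geometric series of `-a`
  have hneg : -a ∈ C.J 1 := (C.J 1).neg_mem ha
  let T : ℕ → R := fun k => ∑ i ∈ Finset.range k, (-a) ^ i
  have hT : ∀ k, T (k + 1) - T k ∈ C.J k := by
    intro k
    simp only [T, Finset.sum_range_succ, add_sub_cancel_left]
    exact C.pow_mem hneg k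
  obtain ⟨S, hS⟩ := C.complete T hT
  have h1a : (1 + a) ∈ C.J 0 :=
    (C.J 0).add_mem C.one_mem (C.anti_le (by norm_num) ha)
  have hgeom1 : ∀ k, (1 + a) * T k = 1 - (-a) ^ k := by
    intro k
    have := mul_neg_geom_sum (-a) k
    simpa [T] using this
  have hgeom2 : ∀ k, T k * (1 + a) = 1 - (-a) ^ k := by
    intro k
    have := geom_sum_mul_neg (-a) k
    simpa [T] using this
  have hr : (1 + a) * S = 1 := by
    have : (1 + a) * S - 1 = 0 := by
      apply C.sep
      intro k
      have h1 := C.mul_mem_zero_left h1a (hS k)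
      have h2 := (C.J k).sub_mem h1 (C.pow_mem hneg k)
      convert h2 using 1
      rw [mul_sub, hgeom1]
      noncomm_ring
    exact sub_eq_zero.1 this
  have hl : S * (1 + a) = 1 := by
    have : S * (1 + a) - 1 = 0 := by
      apply C.sep
      intro k
      have h1 := C.mul_mem_zero_right (hS k) h1a
      have h2 := (C.J k).sub_mem h1 (C.pow_mem hneg k)
      convert h2 using 1
      rw [sub_mul, hgeom2]
      noncomm_ring
    exact sub_eq_zero.1 this
  have hS1 : S - 1 ∈ C.J 1 := by
    have := hS 1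
    simpa [T] using this
  refine ⟨⟨⟨1 + a, S, hr, hl⟩, ?_, ?_⟩, rfl⟩
  · simpa using ha
  · simpa using hS1

/-- Linear functionals vanishing on `J k` are polynomial functions on the unipotent group. -/
theorem functional_mem_Phi (k : ℕ) : ∀ l : R →ₗ[ℚ] ℚ, (∀ a ∈ C.J k, l a = 0) →
    (fun x : C.U => l (val x)) ∈ Phi C.U k := by
  induction k with
  | zero =>
    intro l hl
    rw [mem_Phi_zero]
    ext x
    exact hl _ (val_mem_zero x)
  | succ k ih =>
    intro l hl g
    let l' : R →ₗ[ℚ] ℚ := l.comp (LinearMap.mulLeft ℚ (val g - 1))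
    have hl' : ∀ a ∈ C.J k, l' a = 0 := by
      intro a ha
      exact hl _ (C.mul_mem_one_left (val_sub_one_mem g) ha)
    have := ih l' hl'
    convert this using 1
    ext x
    simp [l', sub_mul, map_sub]

/-- The polynomial functions separate the points of the unipotent group. -/
theorem poly_sep : ∀ x y : C.U, x ≠ y → ∃ d, ∃ f ∈ Phi C.U d, f x ≠ f y := by
  intro x y hxy
  have hne : val x - val y ≠ 0 := fun h => hxy (val_injective (sub_eq_zero.1 h))
  obtain ⟨k, hk⟩ : ∃ k, val x - val y ∉ C.J k := by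
    by_contra hcon
    exact hne (C.sep _ (fun k => by_contra fun h => hcon ⟨k, h⟩))
  obtain ⟨l, hl1, hl2⟩ := Submodule.exists_le_ker_of_notMem hk
  refine ⟨k, fun z => l (val z), C.functional_mem_Phi k l ?_, ?_⟩
  · intro a ha
    exact hl2 ha
  · intro h
    apply hl1
    simp only at h
    rw [map_sub, h, sub_self]

end CFil

end Vale.Agent.P174
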