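import Vale.Agent.P174.Action

/-!
# The Fox criterion: independent universal relators give solvability.
-/

universe u

namespace Vale.Agent.P174

open Monoid

section fox

variable {G Q B : Type u} [Group G] [Group Q] [Group B] {π : G →* Q} {n m : ℕ}

/-- The free power of the kernel, one copy for each point of `Q`. -/
abbrev BaseG (π : G →* Q) : Type u := Monoid.CoprodI (fun _ : Q => π.ker)

/-- The free product of the base group with a free group on `Fin n × Q`. -/
abbrev BigB (B Q : Type u) [Group B] (n : ℕ) : Type u :=
  Monoid.Coprod B (FreeGroup (Fin n × Q))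

/-- The cocycle attached to a transversal. -/
noncomputable def transvCoc (D : Transv π) : Coc π (BaseG π) where
  k g x := Monoid.CoprodI.of (i := D.idx x) (D.coc g x)
  k_mul g h x := by
    rw [D.coc_mul, map_mul, D.idx_mul]
  k_one x := by
    rw [D.coc_one, map_one]

/-- The cocycle attached to a transversal is faithful at the identity. -/
theorem transvCoc_faithful (D : Transv π) (g : G) (h1 : π g = 1) (h2 : (transvCoc D).k g 1 = 1) :
    g = 1 := by
  have h6 : D.coc g 1 = 1 := by
    apply (injective_iff_map_eq_one _).1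
      (Monoid.CoprodI.of_injective (M := fun _ : Q => π.ker) (D.idx 1))
    exact h2
  exact D.eq_one_of_coc h1 h6

/-- The universal cocycle with values in `B * F(Fin n × Q)`. -/
noncomputable def bigCoc (κ : Coc π B) (n : ℕ) : Coc π (BigB B Q n) :=
  κ.push Monoid.Coprod.inl

/-- The generators of the free factor. -/
noncomputable def bigTau (B Q : Type u) [Group B] (n : ℕ) (p : Fin n × Q) : BigB B Q n :=
  Monoid.Coprod.inr (FreeGroup.of p)

/-- The universal extended cocycle. -/
noncomputable def bigF (κ : Coc π B) (t : Fin n → Q) (w : Star G n) (x : Q) : BigB B Q n :=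
  Fn (bigCoc κ n) t (bigTau B Q n) w x

/-- The Fox criterion: if the universal relators obtained from a solution in `Q` of the image of
the system have independent exponent vectors, the system is solvable over `G`. -/
theorem fox_criterion (κ : Coc π B) (hfaith : ∀ g, π g = 1 → κ.k g 1 = 1 → g = 1)
    (hB : AllSolv B) (t : Fin n → Q)
    (w : Fin m → Star G n) (hθ : ∀ r, theta π t (w r) = 1)
    (hindep : LinearIndependent ℚ (fun i : Fin m × Q => expYVec (bigF κ t (w i.1) i.2))) :
    Solvable w := by
  classical
  -- the relators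
  let T : Fin m × Q → BigB B Q n := fun i => bigF κ t (w i.1) i.2
  let K := Subgroup.normalClosure (Set.range T)
  let φ : BigB B Q n →* (BigB B Q n ⧸ K) := QuotientGroup.mk' K
  have hinj : Function.Injective (φ.comp (Monoid.Coprod.inl : B →* BigB B Q n)) :=
    compact hB T hindep
  -- the action on `Q × S₀`
  let κ₀ := (bigCoc κ n).push φ
  let τ₀ : Fin n × Q → (BigB B Q n ⧸ K) := fun p => φ (bigTau B Q n p)
  have hrel : ∀ r, rho κ₀ t τ₀ (w r) = 1 := by
    intro r
    ext ⟨x, s⟩
    · rw [rho_apply]; simp [hθ]
    · rw [rho_apply]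
      have h1 : Fn κ₀ t τ₀ (w r) x = φ (T (r, x)) := Fn_push (bigCoc κ n) φ t (bigTau B Q n) (w r) x
      have h2 : φ (T (r, x)) = 1 := by
        have : T (r, x) ∈ K := Subgroup.subset_normalClosure ⟨(r, x), rfl⟩
        exact (QuotientGroup.eq_one_iff _).2 this
      simp [h1, h2]
  rw [Solvable, injective_iff_map_eq_one]
  intro g hg
  have hg' : (Monoid.Coprod.inl g : Star G n) ∈ Subgroup.normalClosure (Set.range w) := by
    simpa [QuotientGroup.eq_one_iff] using hg
  have hker : Subgroup.normalClosure (Set.range w) ≤ (rho κ₀ t τ₀).ker := by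
    refine Subgroup.normalClosure_le_normal ?_
    rintro _ ⟨r, rfl⟩
    exact hrel r
  have h1 : rho κ₀ t τ₀ (Monoid.Coprod.inl g) = 1 := hker hg'
  have h2 := congrArg (fun p : Equiv.Perm (Q × (BigB B Q n ⧸ K)) => p (1, 1)) h1
  simp only [rho_inl, mul_one, Equiv.Perm.coe_one, id_eq] at h2
  have h3 : π g = 1 := congrArg Prod.fst h2
  have h4 : κ₀.k g 1 = 1 := congrArg Prod.snd h2
  have h5 : κ.k g 1 = 1 := by
    apply (injective_iff_map_eq_one _).1 hinj
    exact h4
  exact hfaith g h3 h5

end fox

end Vale.Agent.P174
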