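import Vale.Agent.P174.Poly

/-!
# The Fox criterion in terms of Fox derivatives over the rational group algebra.
-/

universe u

namespace Vale.Agent.P174

open Monoid

section foxcalc

variable {G Q : Type u} [Group G] [Group Q] {n m : ℕ}

/-- `D w j` are the right Fox derivatives of the word `w` at the point `t`, with values in the
rational group algebra: they vanish on `G`, `D x_i j` is `1` for `i = j` and `0` otherwise, and
`D (u v) j = D u j * θ(v) + D v j`, where `θ` is evaluation at `t`. -/
def IsFoxDeriv (π : G →* Q) (t : Fin n → Q) (D : Star G n → Fin n → MonoidAlgebra ℚ Q) : Prop :=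
  (∀ g j, D (Monoid.Coprod.inl g) j = 0) ∧
  (∀ i j, D (Monoid.Coprod.inr (FreeGroup.of i)) j = if i = j then 1 else 0) ∧
  (∀ u v j, D (u * v) j = D u j * MonoidAlgebra.of ℚ Q (theta π t v) + D v j)

theorem IsFoxDeriv.map_one {π : G →* Q} {t : Fin n → Q} {D : Star G n → Fin n → MonoidAlgebra ℚ Q}
    (hD : IsFoxDeriv π t D) (j : Fin n) : D 1 j = 0 := by
  have := hD.1 1 j
  simpa using this

theorem IsFoxDeriv.map_inv {π : G →* Q} {t : Fin n → Q} {D : Star G n → Fin n → MonoidAlgebra ℚ Q}
    (hD : IsFoxDeriv π t D) (u : Star G n) (j : Fin n) :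
    D u⁻¹ j * MonoidAlgebra.of ℚ Q (theta π t u) = - D u j := by
  have h := hD.2.2 u⁻¹ u j
  rw [inv_mul_cancel, hD.map_one] at h
  exact eq_neg_of_add_eq_zero_left h.symm

/-- The trivial cocycle. -/
def trivCoc (π : G →* Q) (S : Type u) [Group S] : Coc π S where
  k _ _ := 1
  k_mul _ _ _ := by simp
  k_one _ := rfl

/-- The right Fox derivative, computed through the action of `G * F_n` on `Q × ℚ[Q]`. -/
noncomputable def foxFn (π : G →* Q) (t : Fin n → Q) (j : Fin n) (w : Star G n) (x : Q) :
    Multiplicative (MonoidAlgebra ℚ Q) :=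
  Fn (trivCoc π _) t
    (fun p => Multiplicative.ofAdd (if p.1 = j then MonoidAlgebra.of ℚ Q p.2 else 0)) w x

theorem foxFn_eq (π : G →* Q) (t : Fin n → Q) (j : Fin n) (w : Star G n) (x : Q) :
    Multiplicative.toAdd (foxFn π t j w x)
      = Multiplicative.toAdd (foxFn π t j w 1) * MonoidAlgebra.of ℚ Q x := by
  induction w using star_induction generalizing x with
  | hinl g => simp [foxFn, trivCoc]
  | hx i =>
    simp only [foxFn, Fn_x]
    by_cases h : i = j <;> simp [h]
  | hmul u v hu hv =>
    simp only [foxFn, Fn_mul, toAdd_mul, mul_one] at hu hv ⊢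
    rw [hu (theta π t v * x), hu (theta π t v), hv x, add_mul, mul_assoc, map_mul]
  | hinv u hu =>
    have h1 : ∀ y, Multiplicative.toAdd (foxFn π t j u⁻¹ (theta π t u * y))
        = - Multiplicative.toAdd (foxFn π t j u y) := by
      intro y
      simp [foxFn, Fn_inv]
    have e1 : x = theta π t u * ((theta π t u)⁻¹ * x) := by group
    have e2 : (1 : Q) = theta π t u * (theta π t u)⁻¹ := by group
    have h2 := h1 ((theta π t u)⁻¹ * x)
    have h3 := h1 (theta π t u)⁻¹
    rw [← e1] at h2
    rw [← e2] at h3
    rw [h2, h3, hu ((theta π t u)⁻¹ * x), hu ((theta π t u)⁻¹), neg_mul, mul_assoc, map_mul]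

/-- Right Fox derivatives exist. -/
theorem exists_foxDeriv (π : G →* Q) (t : Fin n → Q) :
    ∃ D : Star G n → Fin n → MonoidAlgebra ℚ Q, IsFoxDeriv π t D := by
  refine ⟨fun w j => Multiplicative.toAdd (foxFn π t j w 1), ?_, ?_, ?_⟩
  · intro g j
    simp [foxFn, trivCoc]
  · intro i j
    simp only [foxFn, Fn_x]
    by_cases h : i = j
    · simp [h, MonoidAlgebra.one_def]
    · simp [h]
  · intro u v j
    have h := foxFn_eq π t j u (theta π t v)
    simp only [foxFn, Fn_mul, toAdd_mul, mul_one] at h ⊢
    rw [h]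

end foxcalc

section criterion

variable {G Q B : Type u} [Group G] [Group Q] [Group B] {π : G →* Q} {n m : ℕ}

/-- The exponent vectors of the universal relators are computed by the Fox derivatives. -/
theorem expY_bigF (κ : Coc π B) (t : Fin n → Q) {D : Star G n → Fin n → MonoidAlgebra ℚ Q}
    (hD : IsFoxDeriv π t D) (w : Star G n) (j : Fin n) :
    ∀ x y : Q, expYVec (bigF κ t w x) (j, y) = (D w j * MonoidAlgebra.of ℚ Q x).coeff y := by
  induction w using star_induction with
  | hinl g =>
    intro x y
    simp [bigF, bigCoc, Coc.push, hD.1]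
  | hx i =>
    intro x y
    rw [hD.2.1]
    simp only [bigF, Fn_x, bigTau, expYVec_inr_of]
    by_cases h : i = j
    · subst h
      by_cases hxy : x = y
      · subst hxy
        simp [MonoidAlgebra.of_apply, MonoidAlgebra.coeff_single]
      · simp [MonoidAlgebra.of_apply, MonoidAlgebra.coeff_single, hxy]
    · simp [h]
  | hmul u v hu hv =>
    intro x y
    simp only [bigF, Fn_mul, expYVec_mul, Finsupp.coe_add, Pi.add_apply] at hu hv ⊢
    rw [hu, hv, hD.2.2, add_mul, mul_assoc, ← _root_.map_mul]
    rfl
  | hinv u hu =>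
    intro x y
    have h1 : bigF κ t u⁻¹ x = (bigF κ t u ((theta π t u)⁻¹ * x))⁻¹ := by
      have := Fn_inv (bigCoc κ n) t (bigTau B Q n) u ((theta π t u)⁻¹ * x)
      simpa [bigF] using this
    have h2 : D u⁻¹ j = - D u j * MonoidAlgebra.of ℚ Q (theta π t u)⁻¹ := by
      have h3 := hD.map_inv u j
      calc D u⁻¹ j = D u⁻¹ j * (MonoidAlgebra.of ℚ Q (theta π t u)
            * MonoidAlgebra.of ℚ Q (theta π t u)⁻¹) := by
              rw [← _root_.map_mul, mul_inv_cancel, _root_.map_one, mul_one]
        _ = - D u j * MonoidAlgebra.of ℚ Q (theta π t u)⁻¹ := by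
              rw [← mul_assoc, h3]
    rw [h1, expYVec_inv, h2, neg_mul, neg_mul, mul_assoc, ← _root_.map_mul]
    simp only [Finsupp.coe_neg, Pi.neg_apply, MonoidAlgebra.coeff_neg, neg_inj]
    exact hu _ y

/-- Fox injectivity gives independence of the universal relators. -/
theorem rows_indep_of_fox (κ : Coc π B) (t : Fin n → Q)
    {D : Star G n → Fin n → MonoidAlgebra ℚ Q} (hD : IsFoxDeriv π t D) (w : Fin m → Star G n)
    (hinj : Function.Injective
      (fun (c : Fin m → MonoidAlgebra ℚ Q) (j : Fin n) => ∑ r, D (w r) j * c r)) :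
    LinearIndependent ℚ (fun i : Fin m × Q => expYVec (bigF κ t (w i.1) i.2)) := by
  classical
  rw [linearIndependent_iff]
  intro l hl
  -- the coefficient vector
  let c : Fin m → MonoidAlgebra ℚ Q := fun r =>
    ∑ i ∈ l.support, if i.1 = r then l i • MonoidAlgebra.of ℚ Q i.2 else 0
  have hc : (fun j => ∑ r, D (w r) j * c r) = fun _ : Fin n => (0 : MonoidAlgebra ℚ Q) := by
    funext j
    apply MonoidAlgebra.ext
    ext y
    have h1 := DFunLike.congr_fun hl (j, y)
    rw [Finsupp.linearCombination_apply, Finsupp.sum] at h1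
    simp only [Finsupp.coe_finsetSum, Finset.sum_apply, Finsupp.coe_smul, Pi.smul_apply,
      smul_eq_mul, Finsupp.coe_zero, Pi.zero_apply, expY_bigF κ t hD] at h1
    have h2 : ∑ r, D (w r) j * c r
        = ∑ i ∈ l.support, l i • (D (w i.1) j * MonoidAlgebra.of ℚ Q i.2) := by
      simp only [c, Finset.mul_sum]
      rw [Finset.sum_comm]
      refine Finset.sum_congr rfl fun i _ => ?_
      rw [Finset.sum_eq_single i.1]
      · simp only [if_true]
        rw [mul_smul_comm]
      · intro r _ hr
        simp [Ne.symm hr]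
      · simp
    rw [h2, MonoidAlgebra.coeff_sum]
    simp only [Finsupp.coe_finsetSum, Finset.sum_apply, MonoidAlgebra.coeff_smul, Finsupp.coe_smul,
      Pi.smul_apply, smul_eq_mul, MonoidAlgebra.coeff_zero, Finsupp.coe_zero, Pi.zero_apply]
    exact h1
  have hc0 : c = 0 := by
    apply hinj
    change (fun j => ∑ r, D (w r) j * c r) = _
    rw [hc]
    funext j
    simp
  ext ⟨r, x⟩
  have h3 := congrArg (fun z : MonoidAlgebra ℚ Q => z.coeff x) (congrFun hc0 r)
  simp only [c, MonoidAlgebra.coeff_sum, Finsupp.coe_finsetSum, Finset.sum_apply, Pi.zero_apply,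
    MonoidAlgebra.coeff_zero, Finsupp.coe_zero] at h3
  have h4 : ∑ i ∈ l.support,
      (if i.1 = r then l i • MonoidAlgebra.of ℚ Q i.2 else 0 : MonoidAlgebra ℚ Q).coeff x
      = l (r, x) := by
    by_cases hx : (r, x) ∈ l.support
    · rw [Finset.sum_eq_single (r, x)]
      · simp [MonoidAlgebra.of_apply, MonoidAlgebra.coeff_single]
      · rintro ⟨r', x'⟩ _ hne
        by_cases hr : r' = r
        · subst hr
          have : x' ≠ x := fun e => hne (by rw [e])
          simp [MonoidAlgebra.of_apply, MonoidAlgebra.coeff_single, this]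
        · simp [hr]
      · intro h
        exact absurd hx h
    · rw [Finset.sum_eq_zero]
      · exact (by simpa using hx : l (r, x) = 0).symm
      · rintro ⟨r', x'⟩ hi
        by_cases hr : r' = r
        · subst hr
          have : x' ≠ x := by
            rintro rfl
            exact hx hi
          simp [MonoidAlgebra.of_apply, MonoidAlgebra.coeff_single, this]
        · simp [hr]
  rw [h4] at h3
  simpa using h3

/-- The Fox criterion over the group algebra. -/
theorem solvable_of_fox (π : G →* Q) (t : Fin n → Q) (w : Fin m → Star G n)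
    (hθ : ∀ r, theta π t (w r) = 1)
    (hB : ∀ C : Type u, AllSolv (Monoid.CoprodI (fun _ : C => π.ker)))
    {D : Star G n → Fin n → MonoidAlgebra ℚ Q} (hD : IsFoxDeriv π t D)
    (hinj : Function.Injective
      (fun (c : Fin m → MonoidAlgebra ℚ Q) (j : Fin n) => ∑ r, D (w r) j * c r)) :
    Solvable w := by
  obtain ⟨Tr⟩ := exists_transv π
  exact fox_criterion (transvCoc Tr) (transvCoc_faithful Tr) (hB _) t w hθ
    (rows_indep_of_fox _ t hD w hinj)

/-- The augmentation of a Fox derivative is the exponent sum. -/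
theorem augmentation_fox (π : G →* Q) (t : Fin n → Q)
    {D : Star G n → Fin n → MonoidAlgebra ℚ Q} (hD : IsFoxDeriv π t D) (j : Fin n)
    (w : Star G n) :
    MonoidAlgebra.lift ℚ ℚ Q (1 : Q →* ℚ) (D w j) = (expoVec w j : ℚ) := by
  induction w using star_induction with
  | hinl g => simp [hD.1]
  | hx i =>
    rw [hD.2.1, expoVec_inr_of]
    by_cases h : i = j
    · subst h; simp
    · have h' : j ≠ i := fun e => h e.symm
      simp [h, h']
  | hmul u v hu hv =>
    rw [hD.2.2, _root_.map_add, _root_.map_mul, hu, hv, expoVec_mul]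
    simp
  | hinv u hu =>
    have h := hD.map_inv u j
    have h2 := congrArg (MonoidAlgebra.lift ℚ ℚ Q (1 : Q →* ℚ)) h
    rw [_root_.map_mul, _root_.map_neg, hu] at h2
    simp only [MonoidAlgebra.lift_of, MonoidHom.one_apply, mul_one] at h2
    rw [h2, expoVec_inv]
    simp

/-- The augmentation of the rational group algebra. -/
noncomputable def augm (Q : Type u) [Group Q] : MonoidAlgebra ℚ Q →ₐ[ℚ] ℚ :=
  MonoidAlgebra.lift ℚ ℚ Q (1 : Q →* ℚ)

/-- Strebel's property over `ℚ`: a matrix over the rational group algebra of `Q` (acting by left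
multiplication of its entries on column vectors) is injective as soon as its image under the
augmentation is injective on rational vectors. -/
def StrebelProp (Q : Type u) [Group Q] : Prop :=
  ∀ (m n : ℕ) (M : Fin m → Fin n → MonoidAlgebra ℚ Q),
    Function.Injective (fun (c : Fin m → ℚ) (j : Fin n) => ∑ r, augm Q (M r j) * c r) →
    Function.Injective (fun (c : Fin m → MonoidAlgebra ℚ Q) (j : Fin n) => ∑ r, M r j * c r)

/-- A nonsingular system with a solution in a group with Strebel's property is solvable over `G`. -/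
theorem solvable_of_strebel (π : G →* Q) (hS : StrebelProp Q) (t : Fin n → Q)
    (w : Fin m → Star G n) (hθ : ∀ r, theta π t (w r) = 1) (hns : Nonsingular w)
    (hB : ∀ C : Type u, AllSolv (Monoid.CoprodI (fun _ : C => π.ker))) :
    Solvable w := by
  obtain ⟨D, hD⟩ := exists_foxDeriv π t
  refine solvable_of_fox π t w hθ hB hD (hS m n (fun r j => D (w r) j) ?_)
  have haug : ∀ r j, augm Q (D (w r) j) = (expoVec (w r) j : ℚ) := fun r j =>
    augmentation_fox π t hD j (w r)
  simp only [haug]
  intro a b hab
  unfold Nonsingular at hns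
  rw [Fintype.linearIndependent_iff] at hns
  ext r
  have h1 := hns (fun r => a r - b r) ?_ r
  · exact sub_eq_zero.1 h1
  · ext j
    have h2 := congrFun hab j
    simp only [Finset.sum_apply, Pi.smul_apply, smul_eq_mul, Pi.zero_apply, sub_mul]
    rw [Finset.sum_sub_distrib, sub_eq_zero]
    simp only [mul_comm (a _), mul_comm (b _)]
    exact h2

/-- A single equation with nonzero exponent sum in some unknown, with a solution in a group whose
rational group algebra has no zero divisors, is solvable over `G`. -/
theorem solvable_of_noZeroDivisors (π : G →* Q) [NoZeroDivisors (MonoidAlgebra ℚ Q)]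
    (t : Fin n → Q) (w : Star G n) (j : Fin n) (hθ : theta π t w = 1) (hexp : expoVec w j ≠ 0)
    (hB : ∀ C : Type u, AllSolv (Monoid.CoprodI (fun _ : C => π.ker))) :
    Solvable (fun _ : Fin 1 => w) := by
  obtain ⟨D, hD⟩ := exists_foxDeriv π t
  refine solvable_of_fox π t (fun _ => w) (fun _ => hθ) hB hD ?_
  have hne : D w j ≠ 0 := by
    intro h
    have := augmentation_fox π t hD j w
    rw [h, _root_.map_zero] at this
    exact hexp (by exact_mod_cast this.symm)
  intro a b hab
  ext r
  have h1 := congrFun hab j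
  simp only [Fin.sum_univ_one] at h1
  have h2 := mul_left_cancel₀ hne h1
  have : r = 0 := Subsingleton.elim _ _
  subst this
  rw [h2]

end criterion

end Vale.Agent.P174
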