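import Vale.Agent.P174.Filtered

/-!
# Solving nonsingular systems in the unipotent group of a complete filtered algebra.
-/

universe u

namespace Vale.Agent.P174

open Monoid CFil

section hensel

variable {R : Type u} [Ring R] [Algebra ℚ R] {C : CFil R} {G : Type u} [Group G] {n m : ℕ}
  (π : G →* C.U)

/-- The value in the algebra of a word at the point `t`. -/
noncomputable def ev (t : Fin n → C.U) (w : Star G n) : R := val (theta π t w)

theorem ev_mul (t : Fin n → C.U) (u v : Star G n) : ev π t (u * v) = ev π t u * ev π t v := by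
  simp [ev]

theorem ev_sub_one_mem (t : Fin n → C.U) (w : Star G n) : ev π t w - 1 ∈ C.J 1 :=
  val_sub_one_mem _

theorem delta0 {k : ℕ} {t t' : Fin n → C.U} (h : ∀ j, val (t' j) - val (t j) ∈ C.J k)
    (w : Star G n) : ev π t' w - ev π t w ∈ C.J k := by
  induction w using star_induction with
  | hinl g => simp [ev]
  | hx j => simpa [ev] using h j
  | hmul u v hu hv =>
    rw [ev_mul, ev_mul]
    have h1 := C.mul_mem_zero_right hu (val_mem_zero (theta π t' v))
    have h2 := C.mul_mem_zero_left (val_mem_zero (theta π t u)) hv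
    have := (C.J k).add_mem h1 h2
    convert this using 1
    simp only [ev]
    noncomm_ring
  | hinv u hu =>
    set x' := theta π t' u with hx'
    set x := theta π t u with hx
    have h1 : val x'⁻¹ * (val x' - val x) * val x⁻¹ = val x⁻¹ - val x'⁻¹ := by
      rw [mul_sub, sub_mul, val_inv_mul, one_mul, mul_assoc, val_mul_inv, mul_one]
    have h2 : val x'⁻¹ * (val x' - val x) * val x⁻¹ ∈ C.J k :=
      C.mul_mem_zero_right (C.mul_mem_zero_left (val_mem_zero _) hu) (val_mem_zero _)
    have := (C.J k).neg_mem h2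
    rw [h1, neg_sub] at this
    simpa [ev, map_inv, ← hx', ← hx] using this

/-- First-order expansion of the evaluation when the unknowns are perturbed at level `k`. -/
theorem delta1 {k : ℕ} (t : Fin n → C.U) (a : Fin n → R) (ha : ∀ j, a j ∈ C.J k)
    (v : Fin n → C.U) (hv : ∀ j, val (v j) = 1 + a j) (w : Star G n) :
    ev π (fun j => t j * v j) w - ev π t w - ∑ j, (expoVec w j : ℚ) • a j ∈ C.J (k + 1) := by
  have hE : ∀ w : Star G n, ∑ j, (expoVec w j : ℚ) • a j ∈ C.J k := fun w =>
    Submodule.sum_mem _ fun j _ => Submodule.smul_mem _ _ (ha j)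
  have hlow : ∀ w : Star G n,
      ev π (fun j => t j * v j) w - ev π t w - ∑ j, (expoVec w j : ℚ) • a j ∈ C.J (k + 1) →
      ev π (fun j => t j * v j) w - ev π t w ∈ C.J k := by
    intro w h
    have := (C.J k).add_mem (C.anti k h) (hE w)
    simpa using this
  induction w using star_induction with
  | hinl g => simp [ev]
  | hx i =>
    have h1 : ∑ j, ((expoVec (Monoid.Coprod.inr (FreeGroup.of i) : Star G n) j : ℤ) : ℚ) • a j
        = a i := by
      simp [expoVec_inr_of, apply_ite, ite_smul]
    rw [h1]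
    have h2 := C.mul_mem_one_left (val_sub_one_mem (t i)) (ha i)
    convert h2 using 1
    simp only [ev, theta_x, val_mul, hv]
    noncomm_ring
  | hmul u v' hu hv' =>
    have h1 : ∑ j, ((expoVec (u * v') j : ℤ) : ℚ) • a j
        = ∑ j, ((expoVec u j : ℤ) : ℚ) • a j + ∑ j, ((expoVec v' j : ℤ) : ℚ) • a j := by
      rw [← Finset.sum_add_distrib]
      refine Finset.sum_congr rfl fun j _ => ?_
      rw [expoVec_mul, Int.cast_add, add_smul]
    rw [h1, ev_mul, ev_mul]
    have h2 := C.mul_mem_one_right (hlow u hu) (ev_sub_one_mem π (fun j => t j * v j) v')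
    have h3 := C.mul_mem_one_left (ev_sub_one_mem π t u) (hlow v' hv')
    have := (C.J (k + 1)).add_mem ((C.J (k + 1)).add_mem hu hv') ((C.J (k + 1)).add_mem h2 h3)
    convert this using 1
    noncomm_ring
  | hinv u hu =>
    have h1 : ∑ j, ((expoVec u⁻¹ j : ℤ) : ℚ) • a j = - ∑ j, ((expoVec u j : ℤ) : ℚ) • a j := by
      rw [← Finset.sum_neg_distrib]
      refine Finset.sum_congr rfl fun j _ => ?_
      rw [expoVec_inv, Int.cast_neg, neg_smul]
    rw [h1]
    have hl := hlow u hu
    set x' := theta π (fun j => t j * v j) u with hx'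
    set x := theta π t u with hx
    have hev' : ev π (fun j => t j * v j) u = val x' := rfl
    have hev : ev π t u = val x := rfl
    rw [hev', hev] at hl hu
    have hinv1 : ev π (fun j => t j * v j) u⁻¹ = val x'⁻¹ := by simp [ev, map_inv, ← hx']
    have hinv2 : ev π t u⁻¹ = val x⁻¹ := by simp [ev, map_inv, ← hx]
    rw [hinv1, hinv2]
    have h2 : val x'⁻¹ * (val x' - val x) * val x⁻¹ = val x⁻¹ - val x'⁻¹ := by
      rw [mul_sub, sub_mul, val_inv_mul, one_mul, mul_assoc, val_mul_inv, mul_one]
    have h3 := C.mul_mem_one_left (val_inv_sub_one_mem x')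
      (C.mul_mem_zero_right hl (val_mem_zero x⁻¹))
    have h4 := C.mul_mem_one_right hl (val_inv_sub_one_mem x)
    have := (C.J (k + 1)).neg_mem ((C.J (k + 1)).add_mem ((C.J (k + 1)).add_mem hu h3) h4)
    convert this using 1
    have h5 : val x⁻¹ - val x'⁻¹ - (val x⁻¹ - val x'⁻¹) = 0 := sub_self _
    have h6 : (val x'⁻¹ - 1) * ((val x' - val x) * val x⁻¹)
        = (val x⁻¹ - val x'⁻¹) - (val x' - val x) * val x⁻¹ := by
      rw [← h2]; noncomm_ring
    rw [h6]
    noncomm_ring

/-- The rows of a nonsingular system have a rational right inverse. -/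
theorem exists_right_inverse (w : Fin m → Star G n) (hns : Nonsingular w) :
    ∃ b : Fin n → Fin m → ℚ, ∀ r s, ∑ j, (expoVec (w r) j : ℚ) * b j s = if r = s then 1 else 0 := by
  classical
  unfold Nonsingular at hns
  set rows : Fin m → (Fin n → ℚ) := fun r j => (expoVec (w r) j : ℚ) with hrows
  let f : (Fin m → ℚ) →ₗ[ℚ] (Fin n → ℚ) := Fintype.linearCombination ℚ rows
  have hf : LinearMap.ker f = ⊥ := by
    rw [LinearMap.ker_eq_bot']
    intro c hc
    rw [Fintype.linearIndependent_iff] at hns
    ext r
    exact hns c (by simpa [f, Fintype.linearCombination_apply] using hc) r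
  obtain ⟨g, hg⟩ := LinearMap.exists_leftInverse_of_injective f hf
  have hg' : ∀ r, g (rows r) = Pi.single r 1 := by
    intro r
    have h1 : f (Pi.single r 1) = rows r := by
      simp [f, Fintype.linearCombination_apply, Pi.single_apply, ite_smul]
    have h2 := LinearMap.congr_fun hg (Pi.single r 1)
    simp only [LinearMap.comp_apply, LinearMap.id_apply, h1] at h2
    exact h2
  refine ⟨fun j s => g (Pi.single j 1) s, ?_⟩
  intro r s
  have h1 : rows r = ∑ j, (rows r j) • (Pi.single j (1 : ℚ) : Fin n → ℚ) := by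
    ext i
    simp [Finset.sum_apply, Pi.single_apply]
  have h2 := congrFun (hg' r) s
  rw [h1, map_sum] at h2
  simp only [map_smul, Finset.sum_apply, Pi.smul_apply, smul_eq_mul, Pi.single_apply] at h2
  rw [h2]
  simp [eq_comm]

/-- One Hensel step. -/
theorem hensel_step (w : Fin m → Star G n) (b : Fin n → Fin m → ℚ)
    (hb : ∀ r s, ∑ j, (expoVec (w r) j : ℚ) * b j s = if r = s then 1 else 0)
    {k : ℕ} (hk : 1 ≤ k) (t : Fin n → C.U) (ht : ∀ r, ev π t (w r) - 1 ∈ C.J k) :
    ∃ t' : Fin n → C.U, (∀ r, ev π t' (w r) - 1 ∈ C.J (k + 1)) ∧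
      ∀ j, val (t' j) - val (t j) ∈ C.J k := by
  classical
  let a : Fin n → R := fun j => - ∑ s, b j s • (ev π t (w s) - 1)
  have ha : ∀ j, a j ∈ C.J k := fun j =>
    (C.J k).neg_mem (Submodule.sum_mem _ fun s _ => Submodule.smul_mem _ _ (ht s))
  have hv : ∀ j, ∃ v : C.U, val v = 1 + a j := fun j => C.exists_unit (C.anti_le hk (ha j))
  choose v hv using hv
  refine ⟨fun j => t j * v j, ?_, ?_⟩
  · intro r
    have h1 := delta1 π t a ha v hv (w r)
    have h2 : ∑ j, ((expoVec (w r) j : ℤ) : ℚ) • a j = - (ev π t (w r) - 1) := by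
      simp only [a, smul_neg, Finset.smul_sum, smul_smul]
      rw [Finset.sum_neg_distrib, Finset.sum_comm]
      simp only [← Finset.sum_smul, hb]
      simp [ite_smul]
    rw [h2] at h1
    convert h1 using 1
    noncomm_ring
  · intro j
    have := C.mul_mem_zero_left (val_mem_zero (t j)) (ha j)
    convert this using 1
    simp only [val_mul, hv]
    noncomm_ring

/-- Every nonsingular system has a solution in the unipotent group. -/
theorem hensel (w : Fin m → Star G n) (hns : Nonsingular w) :
    ∃ t : Fin n → C.U, ∀ r, theta π t (w r) = 1 := by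
  classical
  obtain ⟨b, hb⟩ := exists_right_inverse w hns
  let P : ℕ → (Fin n → C.U) → Prop := fun k t => ∀ r, ev π t (w r) - 1 ∈ C.J (k + 1)
  have hstep : ∀ k t, P k t → ∃ t', P (k + 1) t' ∧ ∀ j, val (t' j) - val (t j) ∈ C.J (k + 1) := by
    intro k t ht
    exact hensel_step π w b hb (by omega) t ht
  let seq : (k : ℕ) → {t // P k t} := fun k =>
    Nat.rec ⟨fun _ => 1, fun r => ev_sub_one_mem π _ _⟩
      (fun k s => ⟨Classical.choose (hstep k s.1 s.2), (Classical.choose_spec (hstep k s.1 s.2)).1⟩) k
  have hseq : ∀ k j, val ((seq (k + 1)).1 j) - val ((seq k).1 j) ∈ C.J (k + 1) := by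
    intro k j
    exact (Classical.choose_spec (hstep k (seq k).1 (seq k).2)).2 j
  have hlim : ∀ j, ∃ S : R, ∀ k, S - val ((seq k).1 j) ∈ C.J k := fun j =>
    C.complete (fun k => val ((seq k).1 j)) (fun k => C.anti k (hseq k j))
  choose S hS using hlim
  have hS1 : ∀ j, S j - 1 ∈ C.J 1 := by
    intro j
    have := (C.J 1).add_mem (hS j 1) (val_sub_one_mem ((seq 1).1 j))
    convert this using 1
    noncomm_ring
  have hu : ∀ j, ∃ v : C.U, val v = 1 + (S j - 1) := fun j => C.exists_unit (hS1 j)
  choose t ht using hu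
  refine ⟨t, fun r => ?_⟩
  have hzero : ev π t (w r) - 1 = 0 := by
    apply C.sep
    intro k
    have h1 : ev π t (w r) - ev π (seq k).1 (w r) ∈ C.J k := by
      apply delta0
      intro j
      rw [ht j]
      simpa using hS j k
    have h2 : ev π (seq k).1 (w r) - 1 ∈ C.J k := C.anti k ((seq k).2 r)
    have := (C.J k).add_mem h1 h2
    convert this using 1
    noncomm_ring
  apply val_injective
  simpa [ev] using sub_eq_zero.1 hzero

/-- The closure theorem for homomorphisms into a unipotent group. -/
theorem allSolv_of_unipotent (hB : AllSolv (BaseG π)) : AllSolv G := by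
  intro n m w hns
  obtain ⟨t, ht⟩ := hensel π w hns
  obtain ⟨D⟩ := exists_transv π
  exact fox_criterion (transvCoc D) (transvCoc_faithful D) hB t w ht
    (rows_indep (transvCoc D) t w hns C.poly_sep)

end hensel

end Vale.Agent.P174
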