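import Vale.Agent.P174.Hensel

/-!
# The Magnus embedding of a free group into a unipotent group.
-/

universe u

namespace Vale.Agent.P174

open CFil

section magnus

variable (X : Type u)

/-- Formal series in noncommuting variables, as coefficient functions on words. -/
abbrev MV : Type u := List X → ℚ

/-- Linear endomorphisms of the space of formal series. -/
abbrev MR : Type u := Module.End ℚ (MV X)

/-- Series of order at least `ℓ`. -/
def Ord (ℓ : ℕ) : Submodule ℚ (MV X) where
  carrier := {v | ∀ U : List X, U.length < ℓ → v U = 0}
  add_mem' := by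
    intro a b ha hb U hU
    simp [ha U hU, hb U hU]
  zero_mem' := by
    intro U _
    rfl
  smul_mem' := by
    intro c a ha U hU
    simp [ha U hU]

variable {X}

theorem Ord_anti {a b : ℕ} (h : a ≤ b) {v : MV X} (hv : v ∈ Ord X b) : v ∈ Ord X a :=
  fun U hU => hv U (lt_of_lt_of_le hU h)

variable (X)

/-- The operators raising the order by at least `k`. -/
def magJ (k : ℕ) : Submodule ℚ (MR X) where
  carrier := {T | ∀ ℓ : ℕ, ∀ v ∈ Ord X ℓ, T v ∈ Ord X (ℓ + k)}
  add_mem' := by
    intro a b ha hb ℓ v hv
    exact (Ord X (ℓ + k)).add_mem (ha ℓ v hv) (hb ℓ v hv)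
  zero_mem' := by
    intro ℓ v _
    exact (Ord X (ℓ + k)).zero_mem
  smul_mem' := by
    intro c a ha ℓ v hv
    exact (Ord X (ℓ + k)).smul_mem c (ha ℓ v hv)

/-- The filtration of the endomorphism algebra by raising of the order. -/
def magFil : CFil (MR X) where
  J := magJ X
  one_mem := by
    intro ℓ v hv
    simpa using hv
  anti := by
    intro k T hT ℓ v hv
    exact Ord_anti (by omega) (hT ℓ v hv)
  mul_mem := by
    intro i j a b ha hb ℓ v hv
    have h1 := ha (ℓ + j) (b v) (hb ℓ v hv)
    have : ℓ + (i + j) = ℓ + j + i := by omega
    rw [this]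
    exact h1
  sep := by
    intro a ha
    ext v U
    have h := ha (U.length + 1) 0 v (fun V hV => absurd hV (Nat.not_lt_zero _))
    exact h U (by omega)
  complete := by
    intro T hT
    have hmono : ∀ a b, a ≤ b → T b - T a ∈ magJ X a := by
      intro a b hab
      induction b, hab using Nat.le_induction with
      | base => simp
      | succ b hab ih =>
        have h1 : T (b + 1) - T b ∈ magJ X a := by
          intro ℓ v hv
          exact Ord_anti (by omega) (hT b ℓ v hv)
        have := (magJ X a).add_mem h1 ih
        simpa using this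
    let S : MR X :=
      { toFun := fun v U => T (U.length + 1) v U
        map_add' := by
          intro v v'
          ext U
          simp
        map_smul' := by
          intro c v
          ext U
          simp }
    refine ⟨S, ?_⟩
    intro k ℓ v hv U hU
    change T (U.length + 1) v U - T k v U = 0
    rcases le_total k (U.length + 1) with h | h
    · have := hmono k (U.length + 1) h ℓ v hv U hU
      simpa using this
    · have := hmono (U.length + 1) k h ℓ v hv U (by omega)
      have h2 : T k v U - T (U.length + 1) v U = 0 := by simpa using this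
      linarith

variable {X}

open Classical in
/-- The creation operator of the letter `x`: left multiplication of series by `x`, restricted
to words whose second letter is not `x`. Its square is zero. -/
noncomputable def cre (x : X) : MR X where
  toFun v U :=
    match U with
    | [] => 0
    | y :: U' => if y = x ∧ U'.head? ≠ some x then v U' else 0
  map_add' := by
    intro v v'
    ext U
    cases U with
    | nil => simp
    | cons y U' =>
      by_cases h : y = x ∧ U'.head? ≠ some x <;> simp [h]
  map_smul' := by
    intro c v
    ext U
    cases U with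
    | nil => simp
    | cons y U' =>
      by_cases h : y = x ∧ U'.head? ≠ some x <;> simp [h]

theorem cre_nil (x : X) (v : MV X) : cre x v [] = 0 := rfl

open Classical in
theorem cre_cons (x y : X) (U : List X) (v : MV X) :
    cre x v (y :: U) = if y = x ∧ U.head? ≠ some x then v U else 0 := rfl

theorem cre_mem (x : X) : cre x ∈ (magFil X).J 1 := by
  intro ℓ v hv U hU
  cases U with
  | nil => rfl
  | cons y U' =>
    rw [cre_cons]
    split_ifs
    · exact hv U' (by simpa using hU)
    · rfl

theorem cre_sq (x : X) : cre x * cre x = 0 := by
  ext v U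
  change cre x (cre x v) U = 0
  cases U with
  | nil => rfl
  | cons y U' =>
    rw [cre_cons]
    split_ifs with h
    · cases U' with
      | nil => rfl
      | cons z U'' =>
        rw [cre_cons, if_neg]
        · rintro ⟨rfl, -⟩
          exact h.2 rfl
    · rfl

/-- The generator `1 + cre x` of the Magnus representation. -/
noncomputable def tU (x : X) : (magFil X).U :=
  ⟨⟨1 + cre x, 1 - cre x, by
      have h : (1 + cre x) * (1 - cre x) = 1 - cre x * cre x := by
        simp only [mul_sub, add_mul, one_mul, mul_one]
        abel
      rw [h, cre_sq, sub_zero], by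
      have h : (1 - cre x) * (1 + cre x) = 1 - cre x * cre x := by
        simp only [mul_add, sub_mul, one_mul, mul_one]
        abel
      rw [h, cre_sq, sub_zero]⟩,
    by simpa using cre_mem x, by simpa using (magFil X).J 1 |>.neg_mem (cre_mem x)⟩

theorem val_tU (x : X) : val (tU x) = 1 + cre x := rfl

theorem val_tU_zpow (x : X) (k : ℤ) : val (tU x ^ k) = 1 + (k : ℚ) • cre x := by
  induction k using Int.induction_on with
  | zero => simp
  | succ k ih =>
    rw [zpow_add_one, val_mul, ih, val_tU]
    simp only [mul_add, add_mul, mul_one, one_mul, smul_mul_assoc, cre_sq, smul_zero, add_zero]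
    push_cast
    rw [add_smul, one_smul, add_assoc]
  | pred k ih =>
    rw [zpow_sub_one, val_mul, ih]
    have h1 : val (tU x)⁻¹ = 1 - cre x := rfl
    rw [h1]
    simp only [mul_sub, add_mul, mul_one, one_mul, smul_mul_assoc, cre_sq, smul_zero]
    push_cast
    rw [add_zero]
    ext v U
    simp
    ring

/-- The Magnus homomorphism. -/
noncomputable def mag : FreeGroup X →* (magFil X).U := FreeGroup.lift tU

/-- Syllable lists: a list of nonzero powers of generators, adjacent generators being distinct. -/
def Good : List (X × ℤ) → Prop
  | [] => True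
  | a :: l => a.2 ≠ 0 ∧ Good l ∧ ∀ b ∈ l.head?, a.1 ≠ b.1

/-- The element of the free group given by a syllable list. -/
def evalS (l : List (X × ℤ)) : FreeGroup X := (l.map fun p => FreeGroup.of p.1 ^ p.2).prod

@[simp] theorem evalS_nil : evalS ([] : List (X × ℤ)) = 1 := rfl

@[simp] theorem evalS_cons (a : X × ℤ) (l : List (X × ℤ)) :
    evalS (a :: l) = FreeGroup.of a.1 ^ a.2 * evalS l := by
  simp [evalS]

theorem good_step (x : X) (e : ℤ) (he : e ≠ 0) (l : List (X × ℤ)) (hl : Good l) :
    ∃ l', Good l' ∧ evalS l' = FreeGroup.of x ^ e * evalS l := by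
  cases l with
  | nil =>
    exact ⟨[(x, e)], ⟨he, trivial, by simp⟩, by simp⟩
  | cons a l₀ =>
    by_cases hx : a.1 = x
    · by_cases hs : e + a.2 = 0
      · refine ⟨l₀, hl.2.1, ?_⟩
        rw [evalS_cons, hx, ← mul_assoc, ← zpow_add, hs, zpow_zero, one_mul]
      · refine ⟨(x, e + a.2) :: l₀, ⟨hs, hl.2.1, ?_⟩, ?_⟩
        · intro b hb
          simpa [hx] using hl.2.2 b hb
        · rw [evalS_cons, evalS_cons, hx, ← mul_assoc, ← zpow_add]
    · refine ⟨(x, e) :: a :: l₀, ⟨he, hl, ?_⟩, ?_⟩
      · intro b hb
        simp only [List.head?_cons, Option.mem_def, Option.some.injEq] at hb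
        subst hb
        exact fun h => hx h.symm
      · rw [evalS_cons]

theorem exists_good (w : FreeGroup X) : ∃ l, Good l ∧ evalS l = w := by
  have key : ∀ l : List (X × ℤ), Good l → ∃ l', Good l' ∧ evalS l' = w * evalS l := by
    induction w using FreeGroup.induction_on with
    | C1 => exact fun l hl => ⟨l, hl, by simp⟩
    | of x =>
      intro l hl
      simpa using good_step x 1 one_ne_zero l hl
    | inv_of x _ =>
      intro l hl
      simpa using good_step x (-1) (by norm_num) l hl
    | mul a b ha hb =>
      intro l hl
      obtain ⟨l₁, h₁, e₁⟩ := hb l hl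
      obtain ⟨l₂, h₂, e₂⟩ := ha l₁ h₁
      exact ⟨l₂, h₂, by rw [e₂, e₁, mul_assoc]⟩
  obtain ⟨l, hl, e⟩ := key [] trivial
  exact ⟨l, hl, by simpa using e⟩

/-- The constant series `1`. -/
noncomputable def delta0Vec : MV X := fun U => match U with
  | [] => 1
  | _ :: _ => 0

/-- The image of the series `1` under the Magnus image of a syllable list. -/
noncomputable def vecS (l : List (X × ℤ)) : MV X := val (mag (evalS l)) delta0Vec

theorem vecS_spec (l : List (X × ℤ)) (hl : Good l) :
    (∀ U : List X, l.length < U.length → vecS l U = 0) ∧
      vecS l (l.map Prod.fst) ≠ 0 := by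
  induction l with
  | nil =>
    refine ⟨?_, ?_⟩
    · intro U hU
      cases U with
      | nil => simp at hU
      | cons y U' =>
        simp [vecS, delta0Vec]
    · simp [vecS, delta0Vec]
  | cons a l ih =>
    obtain ⟨ih1, ih2⟩ := ih hl.2.1
    have hv : vecS (a :: l) = vecS l + (a.2 : ℚ) • cre a.1 (vecS l) := by
      simp only [vecS, evalS_cons, map_mul, map_zpow, val_mul]
      have : mag (FreeGroup.of a.1) = tU a.1 := by simp [mag]
      rw [this, val_tU_zpow]
      rfl
    refine ⟨?_, ?_⟩
    · intro U hU
      cases U with
      | nil => simp at hU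
      | cons y U' =>
        rw [hv]
        simp only [Pi.add_apply, Pi.smul_apply, smul_eq_mul]
        rw [ih1 _ (by simp at hU ⊢; omega), cre_cons]
        split_ifs
        · rw [ih1 _ (by simp at hU ⊢; omega)]; simp
        · simp
    · rw [hv]
      simp only [List.map_cons, Pi.add_apply, Pi.smul_apply, smul_eq_mul]
      rw [ih1 _ (by simp), zero_add, cre_cons, if_pos]
      · exact mul_ne_zero (by exact_mod_cast hl.1) ih2
      · refine ⟨rfl, ?_⟩
        cases l with
        | nil => simp
        | cons b l' =>
          simp only [List.map_cons, List.head?_cons, ne_eq, Option.some.injEq]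
          exact (hl.2.2 b (by simp)).symm

theorem mag_injective : Function.Injective (mag : FreeGroup X →* (magFil X).U) := by
  rw [injective_iff_map_eq_one]
  intro w hw
  obtain ⟨l, hl, rfl⟩ := exists_good w
  cases l with
  | nil => rfl
  | cons a l₀ =>
    exfalso
    have h := (vecS_spec (a :: l₀) hl).2
    apply h
    have : vecS (a :: l₀) = delta0Vec := by
      simp only [vecS]
      rw [hw]
      rfl
    rw [this]
    rfl

end magnus

end Vale.Agent.P174
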