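import Vale.Agent.P174.Fox

/-!
# Polynomial functions on a group and independence of the universal relators.
-/

universe u

namespace Vale.Agent.P174

open Monoid

section poly

variable (Q : Type u) [Group Q]

/-- Polynomial functions on `Q` with respect to left differences: `Phi 0 = 0`, and `f` lies in
`Phi (d+1)` when all its left differences `x ↦ f (g x) - f x` lie in `Phi d`. -/
def Phi : ℕ → Submodule ℚ (Q → ℚ)
  | 0 => ⊥
  | d + 1 =>
    { carrier := {f | ∀ g : Q, (fun x => f (g * x) - f x) ∈ Phi d}
      add_mem' := by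
        intro a b ha hb g
        have := (Phi d).add_mem (ha g) (hb g)
        convert this using 1
        ext x
        simp only [Pi.add_apply]
        ring
      zero_mem' := by
        intro g
        have := (Phi d).zero_mem
        convert this using 1
        ext x
        simp
      smul_mem' := by
        intro c a ha g
        have := (Phi d).smul_mem c (ha g)
        convert this using 1
        ext x
        simp only [Pi.smul_apply, smul_eq_mul]
        ring }

variable {Q}

theorem mem_Phi_succ {d : ℕ} {f : Q → ℚ} :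
    f ∈ Phi Q (d + 1) ↔ ∀ g : Q, (fun x => f (g * x) - f x) ∈ Phi Q d := Iff.rfl

theorem mem_Phi_zero {f : Q → ℚ} : f ∈ Phi Q 0 ↔ f = 0 := Iff.rfl

theorem Phi_succ_le (d : ℕ) : Phi Q d ≤ Phi Q (d + 1) := by
  induction d with
  | zero =>
    intro f hf
    rw [mem_Phi_zero] at hf
    subst hf
    exact Submodule.zero_mem _
  | succ d ih =>
    intro f hf g
    exact ih (hf g)

theorem Phi_mono : Monotone (Phi Q) := monotone_nat_of_le_succ Phi_succ_le

theorem const_mem_Phi (c : ℚ) : (fun _ : Q => c) ∈ Phi Q 1 := by
  intro g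
  rw [mem_Phi_zero]
  ext x
  simp

theorem translate_mem_Phi {d : ℕ} {f : Q → ℚ} (hf : f ∈ Phi Q d) (h : Q) :
    (fun x => f (h * x)) ∈ Phi Q d := by
  cases d with
  | zero =>
    rw [mem_Phi_zero] at hf ⊢
    subst hf
    rfl
  | succ d =>
    intro g
    have := (Phi Q d).sub_mem (hf (h * g)) (hf h)
    convert this using 1
    ext x
    simp [mul_assoc]

theorem mul_mem_Phi (N : ℕ) : ∀ (a b : ℕ), a + b = N → ∀ f h : Q → ℚ,
    f ∈ Phi Q a → h ∈ Phi Q b → (fun x => f x * h x) ∈ Phi Q (a + b) := by
  induction N with
  | zero =>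
    intro a b hab f h hf _
    obtain rfl : a = 0 := by omega
    rw [mem_Phi_zero] at hf
    subst hf
    convert (Phi Q _).zero_mem using 1
    ext x
    simp
  | succ N ih =>
    intro a b hab f h hf hh
    rcases a with _ | a
    · rw [mem_Phi_zero] at hf
      subst hf
      convert (Phi Q _).zero_mem using 1
      ext x
      simp
    rcases b with _ | b
    · rw [mem_Phi_zero] at hh
      subst hh
      convert (Phi Q _).zero_mem using 1
      ext x
      simp
    have : a + 1 + (b + 1) = (a + 1 + b) + 1 := by omega
    rw [this]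
    intro g
    have h1 := ih (a + 1) b (by omega) (fun x => f (g * x)) (fun x => h (g * x) - h x)
      (translate_mem_Phi hf g) (hh g)
    have h2 := ih a (b + 1) (by omega) (fun x => f (g * x) - f x) h (hf g) hh
    have h3 : a + (b + 1) = a + 1 + b := by omega
    rw [h3] at h2
    have := (Phi Q _).add_mem h1 h2
    convert this using 1
    ext x
    simp only [Pi.add_apply]
    ring

theorem mul_mem_Phi' {a b : ℕ} {f h : Q → ℚ} (hf : f ∈ Phi Q a) (hh : h ∈ Phi Q b) :
    (fun x => f x * h x) ∈ Phi Q (a + b) :=
  mul_mem_Phi (a + b) a b rfl f h hf hh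

/-- From a separating family of polynomial functions one gets polynomial functions vanishing on a
finite set and not at a point outside of it. -/
theorem exists_poly_of_sep
    (hpt : ∀ x y : Q, x ≠ y → ∃ d, ∃ f ∈ Phi Q d, f x ≠ f y) (x₀ : Q) (S : Finset Q)
    (hS : x₀ ∉ S) : ∃ d, ∃ f ∈ Phi Q d, f x₀ ≠ 0 ∧ ∀ y ∈ S, f y = 0 := by
  classical
  induction S using Finset.induction_on with
  | empty =>
    exact ⟨1, fun _ => 1, const_mem_Phi 1, by simp, by simp⟩
  | insert y S hyS ih =>
    have hy : x₀ ≠ y := fun h => hS (by simp [h])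
    obtain ⟨d, f, hf, hfx, hfS⟩ := ih (fun h => hS (by simp [h]))
    obtain ⟨d', l, hl, hlne⟩ := hpt x₀ y hy
    have hl' : l ∈ Phi Q (d' + 1) := Phi_succ_le d' hl
    have hc : (fun _ : Q => l y) ∈ Phi Q (d' + 1) :=
      Phi_mono (by omega : 1 ≤ d' + 1) (const_mem_Phi (l y))
    have hd := (Phi Q (d' + 1)).sub_mem hl' hc
    refine ⟨d + (d' + 1), fun x => f x * (l x - l y), mul_mem_Phi' hf hd, ?_, ?_⟩
    · simp only
      exact mul_ne_zero hfx (sub_ne_zero.2 hlne)
    · intro z hz
      rcases Finset.mem_insert.1 hz with rfl | hz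
      · simp
      · simp [hfS z hz]

end poly

section rows

variable {G Q B : Type u} [Group G] [Group Q] [Group B] {π : G →* Q} {n m : ℕ}

/-- The functional on exponent vectors pairing the `j`-th block with `f`. -/
noncomputable def pairing (f : Q → ℚ) (j : Fin n) : (Fin n × Q →₀ ℚ) →ₗ[ℚ] ℚ :=
  Finsupp.linearCombination ℚ (fun y : Fin n × Q => if y.1 = j then f y.2 else 0)

/-- The universal Fox-calculus pairing. -/
noncomputable def Afun (κ : Coc π B) (t : Fin n → Q) (f : Q → ℚ) (j : Fin n) (w : Star G n)
    (x : Q) : ℚ :=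
  pairing f j (expYVec (bigF κ t w x))

theorem Afun_mul (κ : Coc π B) (t : Fin n → Q) (f : Q → ℚ) (j : Fin n) (u v : Star G n) (x : Q) :
    Afun κ t f j (u * v) x = Afun κ t f j u (theta π t v * x) + Afun κ t f j v x := by
  simp [Afun, bigF, Fn_mul]

theorem Afun_inv (κ : Coc π B) (t : Fin n → Q) (f : Q → ℚ) (j : Fin n) (u : Star G n) (x : Q) :
    Afun κ t f j u⁻¹ (theta π t u * x) = - Afun κ t f j u x := by
  simp only [Afun, bigF, Fn_inv, expYVec_inv, map_neg]

theorem Afun_inl (κ : Coc π B) (t : Fin n → Q) (f : Q → ℚ) (j : Fin n) (g : G) (x : Q) :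
    Afun κ t f j (Monoid.Coprod.inl g) x = 0 := by
  simp [Afun, bigF, bigCoc, Coc.push]

theorem Afun_x (κ : Coc π B) (t : Fin n → Q) (f : Q → ℚ) (j i : Fin n) (x : Q) :
    Afun κ t f j (Monoid.Coprod.inr (FreeGroup.of i)) x = if i = j then f x else 0 := by
  simp [Afun, bigF, bigTau, pairing]

/-- The first-order behaviour of the Fox pairing on polynomial functions. -/
theorem Afun_sub_mem (κ : Coc π B) (t : Fin n → Q) {d : ℕ} {f : Q → ℚ} (hf : f ∈ Phi Q (d + 1))
    (j : Fin n) (w : Star G n) :
    (fun x => Afun κ t f j w x - (expoVec w j : ℚ) * f x) ∈ Phi Q d := by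
  induction w using star_induction with
  | hinl g =>
    have : (fun x => Afun κ t f j (Monoid.Coprod.inl g : Star G n) x
        - (expoVec (Monoid.Coprod.inl g : Star G n) j : ℚ) * f x) = 0 := by
      ext x
      simp [Afun_inl]
    rw [this]
    exact Submodule.zero_mem _
  | hx i =>
    have : (fun x => Afun κ t f j (Monoid.Coprod.inr (FreeGroup.of i) : Star G n) x
        - (expoVec (Monoid.Coprod.inr (FreeGroup.of i) : Star G n) j : ℚ) * f x) = 0 := by
      ext x
      rw [Afun_x, expoVec_inr_of]
      by_cases h : i = j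
      · subst h; simp
      · have h' : j ≠ i := fun e => h e.symm
        simp [h, h']
    rw [this]
    exact Submodule.zero_mem _
  | hmul u v hu hv =>
    have h1 := translate_mem_Phi hu (theta π t v)
    have h2 := (Phi Q d).smul_mem (expoVec u j : ℚ) (hf (theta π t v))
    have := (Phi Q d).add_mem ((Phi Q d).add_mem h1 h2) hv
    convert this using 1
    ext x
    simp only [Afun_mul, expoVec_mul, Int.cast_add, Pi.add_apply, Pi.smul_apply, smul_eq_mul]
    ring
  | hinv u hu =>
    have h1 := translate_mem_Phi hu (theta π t u)⁻¹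
    have h2 := (Phi Q d).smul_mem (-(expoVec u j : ℚ)) (hf (theta π t u)⁻¹)
    have := (Phi Q d).add_mem ((Phi Q d).neg_mem h1) h2
    convert this using 1
    ext x
    have h3 := Afun_inv κ t f j u ((theta π t u)⁻¹ * x)
    simp only [mul_inv_cancel_left] at h3
    simp only [h3, expoVec_inv, Int.cast_neg, Pi.add_apply, Pi.neg_apply, Pi.smul_apply,
      smul_eq_mul]
    ring

/-- Independence of the universal relators, given separating polynomial functions and a
nonsingular system. -/
theorem rows_indep (κ : Coc π B) (t : Fin n → Q) (w : Fin m → Star G n) (hns : Nonsingular w)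
    (hpt : ∀ x y : Q, x ≠ y → ∃ d, ∃ f ∈ Phi Q d, f x ≠ f y) :
    LinearIndependent ℚ (fun i : Fin m × Q => expYVec (bigF κ t (w i.1) i.2)) := by
  classical
  rw [linearIndependent_iff]
  intro c hc
  -- pair the relation with all functionals
  have hpair : ∀ (f : Q → ℚ) (j : Fin n),
      ∑ i ∈ c.support, c i * Afun κ t f j (w i.1) i.2 = 0 := by
    intro f j
    have := congrArg (pairing f j) hc
    rw [Finsupp.linearCombination_apply, Finsupp.sum, map_sum, map_zero] at this
    simpa [Afun] using this
  -- the main induction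
  have hmain : ∀ (d : ℕ) (f : Q → ℚ), f ∈ Phi Q d → ∀ r : Fin m,
      ∑ i ∈ c.support, c i * (if i.1 = r then f i.2 else 0) = 0 := by
    intro d
    induction d with
    | zero =>
      intro f hf r
      rw [mem_Phi_zero] at hf
      subst hf
      simp
    | succ d ih =>
      intro f hf
      have hns' := hns
      unfold Nonsingular at hns'
      rw [Fintype.linearIndependent_iff] at hns'
      refine hns' _ ?_
      ext j
      simp only [Finset.sum_apply, Pi.smul_apply, smul_eq_mul, Pi.zero_apply]
      -- the difference functions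
      have hh : ∀ r : Fin m,
          ∑ i ∈ c.support, c i * (if i.1 = r then
            (Afun κ t f j (w r) i.2 - (expoVec (w r) j : ℚ) * f i.2) else 0) = 0 :=
        fun r => ih _ (Afun_sub_mem κ t hf j (w r)) r
      have h1 := hpair f j
      have h2 : ∑ i ∈ c.support, c i * Afun κ t f j (w i.1) i.2
          = ∑ r : Fin m, ∑ i ∈ c.support, c i * (if i.1 = r then
              (Afun κ t f j (w r) i.2 - (expoVec (w r) j : ℚ) * f i.2) else 0)
            + ∑ r : Fin m, (∑ i ∈ c.support, c i * (if i.1 = r then f i.2 else 0))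
                * (expoVec (w r) j : ℚ) := by
        rw [← Finset.sum_add_distrib]
        have : ∀ r : Fin m, ∑ i ∈ c.support, c i * (if i.1 = r then
              (Afun κ t f j (w r) i.2 - (expoVec (w r) j : ℚ) * f i.2) else 0)
            + (∑ i ∈ c.support, c i * (if i.1 = r then f i.2 else 0)) * (expoVec (w r) j : ℚ)
            = ∑ i ∈ c.support, c i * (if i.1 = r then Afun κ t f j (w r) i.2 else 0) := by
          intro r
          rw [Finset.sum_mul, ← Finset.sum_add_distrib]
          refine Finset.sum_congr rfl fun i _ => ?_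
          by_cases h : i.1 = r
          · simp only [h, if_true]; ring
          · simp [h]
        rw [Finset.sum_congr rfl fun r _ => this r, Finset.sum_comm]
        refine Finset.sum_congr rfl fun i _ => ?_
        rw [← Finset.mul_sum]
        simp
      rw [h2, Finset.sum_eq_zero (fun r _ => hh r), zero_add] at h1
      exact h1
  -- conclude
  ext ⟨r, x₀⟩
  by_contra hne
  have hne' : c (r, x₀) ≠ 0 := by simpa using hne
  let S : Finset Q := (c.support.image Prod.snd).erase x₀
  obtain ⟨d, f, hf, hfx, hfS⟩ := exists_poly_of_sep hpt x₀ S (by simp [S])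
  have h := hmain d f hf r
  rw [Finset.sum_eq_single (r, x₀)] at h
  · simp only [if_true] at h
    exact (mul_ne_zero hne' hfx) h
  · rintro ⟨r', x⟩ hi hne2
    by_cases hr : r' = r
    · subst hr
      have hx : x ≠ x₀ := fun e => hne2 (by rw [e])
      have : f x = 0 := by
        apply hfS
        simp only [S, Finset.mem_erase, Finset.mem_image]
        exact ⟨hx, ⟨(r', x), hi, rfl⟩⟩
      simp [this]
    · simp [hr]
  · intro hnot
    simp only [Finsupp.mem_support_iff, not_not] at hnot
    exact absurd hnot hne'

end rows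

end Vale.Agent.P174
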