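import Vale.Agent.P174.Tower

/-!
# Homomorphisms to unipotent automorphism groups of filtered rational vector spaces.
-/

universe u

namespace Vale.Agent.P174

open Monoid CFil

section rep

variable {V : Type u} [AddCommGroup V] [Module ℚ V]

/-- The filtration of the endomorphism algebra attached to a filtration of a vector space. -/
def repJ (F : ℕ → Submodule ℚ V) (k : ℕ) : Submodule ℚ (Module.End ℚ V) where
  carrier := {T | ∀ ℓ : ℕ, ∀ v ∈ F (ℓ + k), T v ∈ F ℓ}
  add_mem' := by
    intro a b ha hb ℓ v hv
    exact (F ℓ).add_mem (ha ℓ v hv) (hb ℓ v hv)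
  zero_mem' := by
    intro ℓ v _
    exact (F ℓ).zero_mem
  smul_mem' := by
    intro c a ha ℓ v hv
    exact (F ℓ).smul_mem c (ha ℓ v hv)

/-- The complete filtered algebra attached to an exhaustive filtration of a vector space. -/
def repFil (F : ℕ → Submodule ℚ V) (hF0 : F 0 = ⊥) (hmono : Monotone F) (hex : ∀ v, ∃ k, v ∈ F k) :
    CFil (Module.End ℚ V) where
  J := repJ F
  one_mem := by
    intro ℓ v hv
    simpa using hv
  anti := by
    intro k T hT ℓ v hv
    exact hT ℓ v (hmono (by omega) hv)
  mul_mem := by
    intro i j a b ha hb ℓ v hv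
    have h1 : v ∈ F (ℓ + i + j) := by
      have : ℓ + (i + j) = ℓ + i + j := by omega
      rwa [this] at hv
    exact ha ℓ (b v) (hb (ℓ + i) v h1)
  sep := by
    intro a ha
    ext v
    obtain ⟨k, hk⟩ := hex v
    have h := ha k 0 v (by simpa using hk)
    rw [hF0] at h
    simpa using h
  complete := by
    classical
    intro T hT
    have hmono' : ∀ a b, a ≤ b → T b - T a ∈ repJ F a := by
      intro a b hab
      induction b, hab using Nat.le_induction with
      | base => simp
      | succ b hab ih =>
        have h1 : T (b + 1) - T b ∈ repJ F a := by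
          intro ℓ v hv
          exact hT b ℓ v (hmono (by omega) hv)
        have := (repJ F a).add_mem h1 ih
        simpa using this
    -- the limit
    let lvl : V → ℕ := fun v => Nat.find (hex v)
    have hlvl : ∀ v, v ∈ F (lvl v) := fun v => Nat.find_spec (hex v)
    have hstab : ∀ v K, lvl v ≤ K → T K v = T (lvl v) v := by
      intro v K hK
      have h := hmono' (lvl v) K hK 0 v (by simpa using hlvl v)
      rw [hF0] at h
      have h2 : (T K - T (lvl v)) v = 0 := by simpa using h
      simpa [sub_eq_zero] using h2
    let S : Module.End ℚ V :=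
      { toFun := fun v => T (lvl v) v
        map_add' := by
          intro v v'
          let K := max (lvl (v + v')) (max (lvl v) (lvl v'))
          rw [← hstab (v + v') K (by omega), ← hstab v K (by omega), ← hstab v' K (by omega), map_add]
        map_smul' := by
          intro c v
          let K := max (lvl (c • v)) (lvl v)
          rw [← hstab (c • v) K (by omega), ← hstab v K (by omega), map_smul]
          rfl }
    refine ⟨S, ?_⟩
    intro k ℓ v hv
    let K := max k (lvl v)
    have h1 : (S - T k) v = (T K - T k) v := by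
      change T (lvl v) v - T k v = T K v - T k v
      rw [hstab v K (by omega)]
    rw [h1]
    exact hmono' k K (by omega) ℓ v hv

end rep

section repmain

variable {G : Type u} [Group G] {V : Type u} [AddCommGroup V] [Module ℚ V]

/-- A linear automorphism as a unit of the endomorphism ring. -/
def equivToUnit : (V ≃ₗ[ℚ] V) →* (Module.End ℚ V)ˣ where
  toFun e := ⟨e.toLinearMap, e.symm.toLinearMap, by ext v; simp, by ext v; simp⟩
  map_one' := by
    ext v
    rfl
  map_mul' := by
    intro a b
    ext v
    rfl

theorem equivToUnit_injective : Function.Injective (equivToUnit (V := V)) := by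
  intro a b h
  ext v
  have := congrArg (fun u : (Module.End ℚ V)ˣ => (u : Module.End ℚ V) v) h
  exact this

theorem allSolv_of_rep (F : ℕ → Submodule ℚ V) (hF0 : F 0 = ⊥) (hmono : Monotone F)
    (hex : ∀ v, ∃ k, v ∈ F k) (ρ : G →* (V ≃ₗ[ℚ] V))
    (hρ : ∀ g k v, v ∈ F (k + 1) → ρ g v - v ∈ F k)
    (h : ∀ C : Type u, AllSolv (Monoid.CoprodI (fun _ : C => ρ.ker))) : AllSolv G := by
  let C := repFil F hF0 hmono hex
  have hmem : ∀ g, (equivToUnit.comp ρ) g ∈ C.U := by
    intro g
    refine ⟨?_, ?_⟩
    · intro ℓ v hv
      exact hρ g ℓ v hv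
    · intro ℓ v hv
      have : ρ g⁻¹ v - v ∈ F ℓ := hρ g⁻¹ ℓ v hv
      have h2 : ρ g⁻¹ = (ρ g)⁻¹ := map_inv _ _
      rw [h2] at this
      exact this
  let π : G →* C.U := (equivToUnit.comp ρ).codRestrict C.U hmem
  have hker : π.ker = ρ.ker := by
    ext g
    simp only [MonoidHom.mem_ker]
    constructor
    · intro hg
      have h1 : equivToUnit (ρ g) = 1 := congrArg Subtype.val hg
      exact (injective_iff_map_eq_one _).1 equivToUnit_injective _ h1
    · intro hg
      apply Subtype.ext
      simp [π, hg]
  have hB : AllSolv (BaseG π) := by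
    unfold BaseG
    rw [hker]
    exact h _
  exact allSolv_of_unipotent π hB

end repmain

end Vale.Agent.P174
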