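import Vale.Agent.P174.Magnus

/-!
# Free products of extensions by free groups.
-/

universe u

namespace Vale.Agent.P174

open Monoid CFil

section coprod_cocycle

variable {C : Type u} {G : C → Type u} [∀ c, Group (G c)] {Q B : Type u} [Group Q] [Group B]
  {P : Monoid.CoprodI G →* Q}

/-- The action of a free product on `Q × B` obtained from cocycles on the factors. -/
noncomputable def coprodAct (κ : ∀ c, Coc (P.comp (Monoid.CoprodI.of : G c →* _)) B) :
    Monoid.CoprodI G →* Equiv.Perm (Q × B) :=
  Monoid.CoprodI.lift fun c => gHom (κ c)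

theorem coprodAct_of (κ : ∀ c, Coc (P.comp (Monoid.CoprodI.of : G c →* _)) B) (c : C) (g : G c)
    (p : Q × B) :
    coprodAct κ (Monoid.CoprodI.of g) p = (P (Monoid.CoprodI.of g) * p.1, (κ c).k g p.1 * p.2) := by
  simp [coprodAct, gHom, gPerm]

theorem coprodAct_apply (κ : ∀ c, Coc (P.comp (Monoid.CoprodI.of : G c →* _)) B)
    (g : Monoid.CoprodI G) : ∀ (x : Q) (s : B),
    coprodAct κ g (x, s) = (P g * x, (coprodAct κ g (x, 1)).2 * s) := by
  induction g using Monoid.CoprodI.induction_on with
  | one => intro x s; simp
  | of g =>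
    intro x s
    simp [coprodAct_of]
  | mul a b ha hb =>
    intro x s
    have h1 : coprodAct κ (a * b) (x, s) = coprodAct κ a (coprodAct κ b (x, s)) := by simp
    have h2 : coprodAct κ (a * b) (x, 1) = coprodAct κ a (coprodAct κ b (x, 1)) := by simp
    obtain ⟨F, hF⟩ : ∃ F, F = (coprodAct κ b (x, 1)).2 := ⟨_, rfl⟩
    have e1 : coprodAct κ b (x, s) = (P b * x, F * s) := by
      have := hb x s
      rw [← hF] at this
      exact this
    have e2 : coprodAct κ b (x, 1) = (P b * x, F) := by
      have := hb x 1
      rw [mul_one, ← hF] at this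
      exact this
    rw [h1, h2, e1, e2, ha (P b * x) (F * s), ha (P b * x) F]
    simp [mul_assoc]

/-- The cocycle on the free product obtained from cocycles on the factors. -/
noncomputable def coprodCoc (κ : ∀ c, Coc (P.comp (Monoid.CoprodI.of : G c →* _)) B) : Coc P B where
  k g x := (coprodAct κ g (x, 1)).2
  k_mul g h x := by
    rw [map_mul, Equiv.Perm.coe_mul, Function.comp_apply, coprodAct_apply κ h x 1, coprodAct_apply κ g]
  k_one x := by simp

theorem coprodCoc_of (κ : ∀ c, Coc (P.comp (Monoid.CoprodI.of : G c →* _)) B) (c : C) (g : G c)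
    (x : Q) : (coprodCoc κ).k (Monoid.CoprodI.of g) x = (κ c).k g x := by
  simp [coprodCoc, coprodAct_of]

end coprod_cocycle

section tower

variable {C : Type u} {G : C → Type u} [∀ c, Group (G c)] {X : C → Type u}
  (π : ∀ c, G c →* FreeGroup (X c)) (hπ : ∀ c, Function.Surjective (π c))

/-- The inclusion of the `c`-th free factor in the free group on the disjoint union of the bases. -/
def iotaF (c : C) : FreeGroup (X c) →* FreeGroup (Σ c, X c) :=
  FreeGroup.map (Sigma.mk c)

theorem iotaF_injective (c : C) : Function.Injective (iotaF (X := X) c) :=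
  FreeGroup.map_injective sigma_mk_injective

/-- The homomorphism from the free product of the `G c` to the free group. -/
noncomputable def piTot : Monoid.CoprodI G →* FreeGroup (Σ c, X c) :=
  Monoid.CoprodI.lift fun c => (iotaF c).comp (π c)

/-- The homomorphism from the free product of the `G c` to the Magnus unipotent group. -/
noncomputable def piQ : Monoid.CoprodI G →* (magFil (Σ c, X c)).U :=
  mag.comp (piTot π)

theorem piQ_of (c : C) (g : G c) :
    piQ π (Monoid.CoprodI.of g) = mag (iotaF c (π c g)) := by
  simp [piQ, piTot]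

/-- The `c`-th component of `piQ`. -/
noncomputable abbrev pc (c : C) : G c →* (magFil (Σ c, X c)).U :=
  (piQ π).comp Monoid.CoprodI.of

theorem pc_apply (c : C) (g : G c) : pc π c g = mag (iotaF c (π c g)) := by
  simp [pc, piQ_of]

theorem pc_eq_one_iff (c : C) (g : G c) : pc π c g = 1 ↔ π c g = 1 := by
  rw [pc_apply]
  constructor
  · intro h
    have h1 := (injective_iff_map_eq_one _).1 mag_injective _ h
    exact (injective_iff_map_eq_one _).1 (iotaF_injective c) _ h1
  · intro h
    simp [h]

/-- A section of `π c`. -/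
noncomputable def secG (c : C) : FreeGroup (X c) →* G c :=
  FreeGroup.lift fun x => Classical.choose (hπ c (FreeGroup.of x))

theorem pi_secG (c : C) (f : FreeGroup (X c)) : π c (secG π hπ c f) = f := by
  have : (π c).comp (secG π hπ c) = MonoidHom.id _ := by
    ext x
    simp [secG, Classical.choose_spec (hπ c (FreeGroup.of x))]
  exact DFunLike.congr_fun this f

/-- A section of the total homomorphism. -/
noncomputable def secT : FreeGroup (Σ c, X c) →* Monoid.CoprodI G :=
  FreeGroup.lift fun p => Monoid.CoprodI.of (secG π hπ p.1 (FreeGroup.of p.2))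

theorem secT_iota (c : C) (f : FreeGroup (X c)) :
    secT π hπ (iotaF c f) = Monoid.CoprodI.of (secG π hπ c f) := by
  have : (secT π hπ).comp (iotaF c) = Monoid.CoprodI.of.comp (secG π hπ c) := by
    ext x
    simp [secT, iotaF]
  exact DFunLike.congr_fun this f

/-- A transversal for the orbits of the factor `G c` acting on the unipotent group, all of whose
elements are chosen in the image of the section. -/
theorem exists_factor_transv (c : C) :
    ∃ (D : Transv (pc π c)), ∀ x, ∃ f : FreeGroup (X c),
      D.a x = secG π hπ c f ∧ mag (iotaF c f) * D.idx x = x := by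
  classical
  let Q := (magFil (Σ c, X c)).U
  let r : Setoid Q :=
    { r := fun x y => ∃ f : FreeGroup (X c), mag (iotaF c f) * x = y
      iseqv :=
        { refl := fun x => ⟨1, by simp⟩
          symm := by
            rintro x y ⟨g, rfl⟩
            exact ⟨g⁻¹, by simp⟩
          trans := by
            rintro x y z ⟨g, rfl⟩ ⟨h, rfl⟩
            exact ⟨h * g, by simp [mul_assoc]⟩ } }
  have hout : ∀ x : Q, ∃ f : FreeGroup (X c),
      mag (iotaF c f) * (Quotient.out (Quotient.mk r x)) = x := by
    intro x
    exact Quotient.exact (Quotient.out_eq (Quotient.mk r x))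
  choose ff hff using hout
  refine ⟨⟨fun x => Quotient.out (Quotient.mk r x), fun x => secG π hπ c (ff x), ?_, ?_⟩, ?_⟩
  · intro g x
    have : Quotient.mk r (pc π c g * x) = Quotient.mk r x := by
      apply Quotient.sound
      refine ⟨(π c g)⁻¹, ?_⟩
      rw [pc_apply]
      simp
    simp only [this]
  · intro x
    simp only [pc_apply, pi_secG]
    exact hff x
  · intro x
    exact ⟨ff x, rfl, hff x⟩

/-- The free power of the kernels, one copy for each factor and each point of the unipotent group. -/
abbrev BaseT : Type u :=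
  Monoid.CoprodI (fun p : C × (magFil (Σ c, X c)).U => (π p.1).ker)

theorem pc_ker_le (c : C) : (pc π c).ker ≤ (π c).ker := by
  intro g hg
  rw [MonoidHom.mem_ker] at hg ⊢
  exact (pc_eq_one_iff π c g).1 hg

/-- The cocycle on a factor. -/
noncomputable def factorCoc (c : C) (D : Transv (pc π c)) : Coc (pc π c) (BaseT π) where
  k g x := Monoid.CoprodI.of (M := fun p : C × (magFil (Σ c, X c)).U => (π p.1).ker)
    (i := (c, D.idx x)) (Subgroup.inclusion (pc_ker_le π c) (D.coc g x))
  k_mul g h x := by
    rw [D.coc_mul, map_mul, map_mul, D.idx_mul]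
  k_one x := by
    rw [D.coc_one, map_one, map_one]

/-- A left inverse of the Magnus homomorphism. -/
noncomputable def magInv (x : (magFil (Σ c, X c)).U) : FreeGroup (Σ c, X c) :=
  Function.invFun mag x

theorem magInv_mag (f : FreeGroup (Σ c, X c)) : magInv (mag f) = f :=
  Function.leftInverse_invFun mag_injective f

/-- The retraction of the base group to the free product of the `G c`. -/
noncomputable def Xi : BaseT π →* Monoid.CoprodI G :=
  Monoid.CoprodI.lift fun p =>
    (MulAut.conj (secT π hπ (magInv p.2))⁻¹).toMonoidHom.comp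
      ((Monoid.CoprodI.of : G p.1 →* _).comp (π p.1).ker.subtype)

theorem Xi_of (c : C) (r : (magFil (Σ c, X c)).U) (n : (π c).ker) :
    Xi π hπ (Monoid.CoprodI.of (M := fun p : C × (magFil (Σ c, X c)).U => (π p.1).ker)
      (i := (c, r)) n)
      = (secT π hπ (magInv r))⁻¹ * Monoid.CoprodI.of (n : G c) * secT π hπ (magInv r) := by
  simp [Xi]

theorem secT_magInv_split (c : C) (D : Transv (pc π c))
    (hD : ∀ x, ∃ f : FreeGroup (X c), D.a x = secG π hπ c f ∧ mag (iotaF c f) * D.idx x = x)
    (f₀ : FreeGroup (Σ c, X c)) :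
    secT π hπ (magInv (mag f₀))
      = Monoid.CoprodI.of (D.a (mag f₀)) * secT π hπ (magInv (D.idx (mag f₀))) := by
  obtain ⟨f, hf1, hf2⟩ := hD (mag f₀)
  have h1 : D.idx (mag f₀) = mag ((iotaF c f)⁻¹ * f₀) := by
    rw [map_mul, map_inv]
    exact eq_inv_mul_of_mul_eq hf2
  rw [h1, magInv_mag, magInv_mag, map_mul, map_inv, secT_iota, hf1]
  simp

theorem Xi_factor (c : C) (D : Transv (pc π c))
    (hD : ∀ x, ∃ f : FreeGroup (X c), D.a x = secG π hπ c f ∧ mag (iotaF c f) * D.idx x = x)
    (g : G c) (f₀ : FreeGroup (Σ c, X c)) :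
    Xi π hπ ((factorCoc π c D).k g (mag f₀))
      = (secT π hπ (magInv (pc π c g * mag f₀)))⁻¹ * Monoid.CoprodI.of g
          * secT π hπ (magInv (mag f₀)) := by
  have hy : pc π c g * mag f₀ = mag (iotaF c (π c g) * f₀) := by
    rw [pc_apply, map_mul]
  have h1 := secT_magInv_split π hπ c D hD f₀
  have h2 := secT_magInv_split π hπ c D hD (iotaF c (π c g) * f₀)
  rw [← hy, D.idx_mul] at h2
  rw [h1, h2]
  simp only [factorCoc]
  rw [Xi_of]
  simp only [Subgroup.coe_inclusion, Transv.coc, map_mul, map_inv]
  group

/-- The cocycle on the free product. -/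
noncomputable def totCoc (D : ∀ c, Transv (pc π c)) : Coc (piQ π) (BaseT π) :=
  coprodCoc fun c => factorCoc π c (D c)

theorem Xi_tot (D : ∀ c, Transv (pc π c))
    (hD : ∀ c x, ∃ f : FreeGroup (X c), (D c).a x = secG π hπ c f ∧
      mag (iotaF c f) * (D c).idx x = x)
    (g : Monoid.CoprodI G) : ∀ f₀ : FreeGroup (Σ c, X c),
    Xi π hπ ((totCoc π D).k g (mag f₀))
      = (secT π hπ (magInv (piQ π g * mag f₀)))⁻¹ * g * secT π hπ (magInv (mag f₀)) := by
  induction g using Monoid.CoprodI.induction_on with
  | one =>
    intro f₀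
    simp [(totCoc π D).k_one]
  | of c g =>
    intro f₀
    rw [totCoc, coprodCoc_of]
    exact Xi_factor π hπ c (D c) (hD c) g f₀
  | mul a b ha hb =>
    intro f₀
    have hy : piQ π b * mag f₀ = mag (piTot π b * f₀) := by
      rw [map_mul]; rfl
    rw [(totCoc π D).k_mul, map_mul, hy, ha, hb, ← hy]
    simp only [map_mul, mul_assoc]
    group

include hπ in
theorem totCoc_faithful (D : ∀ c, Transv (pc π c))
    (hD : ∀ c x, ∃ f : FreeGroup (X c), (D c).a x = secG π hπ c f ∧
      mag (iotaF c f) * (D c).idx x = x)
    (g : Monoid.CoprodI G) (h1 : piQ π g = 1) (h2 : (totCoc π D).k g 1 = 1) : g = 1 := by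
  have h := Xi_tot π hπ D hD g 1
  have h0 : (mag (1 : FreeGroup (Σ c, X c))) = 1 := map_one _
  rw [h0, h2, h1, map_one, one_mul] at h
  have h3 : magInv (1 : (magFil (Σ c, X c)).U) = 1 := by
    have := magInv_mag (X := X) 1
    rwa [h0] at this
  rw [h3] at h
  simpa using h.symm

include hπ in
/-- The closure theorem for free products of extensions by free groups. -/
theorem allSolv_tower (hB : AllSolv (BaseT π)) : AllSolv (Monoid.CoprodI G) := by
  intro n m w hns
  obtain ⟨t, ht⟩ := hensel (piQ π) w hns
  have hD := fun c => exists_factor_transv π hπ c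
  choose D hD using hD
  exact fox_criterion (totCoc π D) (totCoc_faithful π hπ D hD) hB t w ht
    (rows_indep (totCoc π D) t w hns (magFil (Σ c, X c)).poly_sep)

end tower

section inherit

variable {H H' : Type u} [Group H] [Group H']

/-- Howie's conjecture passes to subgroups. -/
theorem allSolv_of_injective (f : H →* H') (hf : Function.Injective f) (h : AllSolv H') :
    AllSolv H := by
  intro n m w hns
  let F : Star H n →* Star H' n :=
    Monoid.Coprod.lift (Monoid.Coprod.inl.comp f) Monoid.Coprod.inr
  have hexp : ∀ (z : Star H n) (j : Fin n), expoVec (F z) j = expoVec z j := by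
    intro z j
    induction z using star_induction with
    | hinl g => simp [F]
    | hx i => simp [F]
    | hmul a b ha hb => simp [ha, hb]
    | hinv a ha => simp [ha]
  have hns' : Nonsingular (fun r => F (w r)) := by
    unfold Nonsingular at hns ⊢
    simpa only [hexp] using hns
  have hs := h n m _ hns'
  rw [Solvable, injective_iff_map_eq_one] at hs ⊢
  intro g hg
  have hg' : (Monoid.Coprod.inl g : Star H n) ∈ Subgroup.normalClosure (Set.range w) := by
    simpa [QuotientGroup.eq_one_iff] using hg
  have hle : Subgroup.normalClosure (Set.range w)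
      ≤ (Subgroup.normalClosure (Set.range fun r => F (w r))).comap F := by
    refine Subgroup.normalClosure_le_normal ?_
    rintro _ ⟨r, rfl⟩
    exact Subgroup.subset_normalClosure ⟨r, rfl⟩
  have h2 := hle hg'
  have h3 : f g = 1 := by
    apply hs
    have : F (Monoid.Coprod.inl g) = Monoid.Coprod.inl (f g) := by simp [F]
    rw [Subgroup.mem_comap, this] at h2
    simpa [QuotientGroup.eq_one_iff] using h2
  exact (injective_iff_map_eq_one _).1 hf g h3

end inherit

/-- A class of groups is good when every free product of members of the class satisfies Howie's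
conjecture. -/
def GoodClass (S : (H : Type u) → [Group H] → Prop) : Prop :=
  ∀ (C : Type u) (H : C → Type u) [∀ c, Group (H c)], (∀ c, S (H c)) → AllSolv (Monoid.CoprodI H)

/-- The class of extensions of members of a class by free groups: the groups `G` with a normal
subgroup `N` in the class such that `G / N` is a free group. -/
def FreeExt (S : (H : Type u) → [Group H] → Prop) (G : Type u) [Group G] : Prop :=
  ∃ (N : Subgroup G) (_ : N.Normal), S N ∧ IsFreeGroup (G ⧸ N)

theorem exists_hom_of_freeExt {G : Type u} [Group G] (N : Subgroup G) (hN : N.Normal)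
    (hf : IsFreeGroup (G ⧸ N)) :
    ∃ (X : Type u) (π : G →* FreeGroup X), Function.Surjective π ∧ π.ker = N := by
  obtain ⟨X, ⟨b⟩⟩ := hf.nonempty_basis
  refine ⟨X, b.repr.toMonoidHom.comp (QuotientGroup.mk' N), ?_, ?_⟩
  · exact b.repr.surjective.comp (QuotientGroup.mk'_surjective N)
  · ext g
    simp only [MonoidHom.mem_ker, MonoidHom.comp_apply, MulEquiv.toMonoidHom_eq_coe,
      MonoidHom.coe_coe]
    rw [EmbeddingLike.map_eq_one_iff]
    exact QuotientGroup.eq_one_iff g

theorem goodClass_freeExt (S : (H : Type u) → [Group H] → Prop) (h : GoodClass S) :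
    GoodClass (FreeExt S) := by
  intro C G _ hG
  choose N hN hS hfree using hG
  have hex := fun c => exists_hom_of_freeExt (N c) (hN c) (hfree c)
  choose X π hsurj hker using hex
  apply allSolv_tower π hsurj
  apply h
  intro p
  rw [hker p.1]
  exact hS p.1

theorem allSolv_of_freeExt (S : (H : Type u) → [Group H] → Prop) (h : GoodClass S)
    (G : Type u) [Group G] (hG : FreeExt S G) : AllSolv G := by
  have h1 := goodClass_freeExt S h PUnit (fun _ => G) (fun _ => hG)
  exact allSolv_of_injective (Monoid.CoprodI.of (M := fun _ : PUnit => G) (i := PUnit.unit))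
    (Monoid.CoprodI.of_injective (M := fun _ : PUnit => G) _) h1

end Vale.Agent.P174
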